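import Vale.Agent.P107.H15.Transfer
import Vale.Agent.P107.Bdl.B4
import Vale.Agent.P107.Bdl.B5

/-!
A solution without any condition at infinity whose initial fields are square integrable and whose
initial density has compact support is a classical solution.
-/

attribute [-instance] ProperSMul.toContinuousSMul IsTopologicalTorsor.toContinuousSMul
  IdemSemiring.toCanonicallyOrderedAdd IdemSemiring.toMulLeftMono IdemSemiring.toMulRightMono
  AddQuantale.instAddLeftMono AddQuantale.instAddRightMono Quantale.instMulLeftMono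
  Quantale.instMulRightMono FiniteDimensional.rclike_to_real IsScalarTower.complexToReal
  FiniteDimensional.complexToReal

open MeasureTheory Set Filter Topology
open scoped RealInnerProductSpace ENNReal NNReal

namespace Vale.Agent.P107.Cn

open RVM (V3)

variable {T : ℝ} {f : ℝ → V3 → V3 → ℝ} {E B : ℝ → V3 → V3}

/-- The support of the density grows at most with speed one. -/
lemma support_ff (h : RVM.IsLocalSolution T f E B)
    (hf : HasCompactSupport (fun z : V3 × V3 => f 0 z.1 z.2)) :
    ∀ t ∈ Ico 0 T, ∃ R : ℝ, ∀ s ∈ Icc 0 t, ∀ x v, ff f s x v ≠ 0 → ‖x‖ ≤ R ∧ ‖v‖ ≤ R := by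
  obtain ⟨R₀, hR₀⟩ := IsCompact.bddAbove_image (K := tsupport fun z : V3 × V3 => f 0 z.1 z.2)
    (f := fun z : V3 × V3 => RVM.len z.1) hf
    (RVM.Glue.continuous_len.comp continuous_fst).continuousOn
  have h0 : ∀ x v : E3, ff f 0 x v ≠ 0 → ‖x‖ ≤ R₀ := by
    intro x v hne
    have : RVM.len (coo x) ≤ R₀ := hR₀ ⟨(coo x, coo v), subset_tsupport _ hne, rfl⟩
    rwa [len_coo] at this
  intro t ht
  obtain ⟨P, hP⟩ := (lSol_ff h).local_support t ht (R₀ + t)
  refine ⟨max (R₀ + t) P, fun s hs x v hne => ?_⟩
  have hsT : s ∈ Ico 0 T := ⟨hs.1, hs.2.trans_lt ht.2⟩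
  have hx : ‖x‖ ≤ R₀ + s := by
    by_contra hcon
    push Not at hcon
    refine hne ((lSol_ff h).toKSol.vanish (x₀ := x) (R := s) (fun y hy v' => ?_) hsT
      (by simp) v)
    by_contra hne'
    have h1 := h0 y v' hne'
    have h2 : ‖x‖ ≤ ‖y‖ + ‖y - x‖ := by
      have := norm_sub_le y (y - x)
      rwa [sub_sub_cancel] at this
    linarith
  have hx' : ‖x‖ ≤ R₀ + t := by linarith [hs.2]
  exact ⟨hx'.trans (le_max_left _ _), (hP s hs x v hx' hne).trans (le_max_right _ _)⟩

lemma GG_FF (F : ℝ → V3 → V3) : LE.GG (FF F) = F := by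
  funext t x
  unfold LE.GG FF
  show coo (coo.symm (F t (coo (coo.symm x)))) = F t x
  rw [coo.apply_symm_apply, coo.apply_symm_apply]

/-- A solution without any condition at infinity whose initial fields are square integrable and
whose initial density has compact support is a classical solution. -/
theorem isClassical_of_local (h : RVM.IsLocalSolution T f E B)
    (hf : HasCompactSupport (fun z : V3 × V3 => f 0 z.1 z.2)) (hE : MemLp (E 0) 2 volume)
    (hB : MemLp (B 0) 2 volume) : RVM.IsClassicalSolution T f E B := by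
  rcases le_or_gt T 0 with hT | hT
  · have he : Ico 0 T = (∅ : Set ℝ) := Ico_eq_empty (not_lt.2 hT)
    have hfield : ∀ F : ℝ → V3 → V3, RVM.IsField T F := by
      intro F
      refine ⟨?_, ?_, ?_⟩
      · rw [he, empty_prod]
        exact contDiffOn_empty
      · rw [he]
        exact fun t ht => absurd ht (notMem_empty t)
      · rw [he]
        exact fun t ht => absurd ht (notMem_empty t)
    exact ⟨h.f_nonneg, h.f_c1, hfield E, hfield B, h.vlasov, h.ampere, h.faraday, h.gauss,
      h.gauss_mag, fun t ht => by rw [he] at ht; exact absurd ht (notMem_empty t)⟩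
  · have hL := lSol_ff h
    have hs := support_ff h hf
    have hmem : ∀ F : V3 → V3, MemLp F 2 volume →
        MemLp (fun x : E3 => coo.symm (F (coo x))) 2 volume := by
      intro F hF
      have h1 : MemLp (fun x : E3 => F (coo x)) 2 volume := hF.comp_measurePreserving mp_coo
      exact (coo.symm : V3 →L[ℝ] E3).comp_memLp' h1
    have hl := LE.l2_fields hT hL.E_contDiff hL.B_contDiff hs hL.ampere hL.faraday
      (hmem _ hE) (hmem _ hB)
    have fE : RVM.IsField T E := by
      have := LE.isField_GG hL.E_contDiff (fun t ht => (hl t ht).1) (fun t ht => (hl t ht).2.2.1)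
      rwa [GG_FF] at this
    have fB : RVM.IsField T B := by
      have := LE.isField_GG hL.B_contDiff (fun t ht => (hl t ht).2.1)
        (fun t ht => (hl t ht).2.2.2)
      rwa [GG_FF] at this
    refine ⟨h.f_nonneg, h.f_c1, fE, fB, h.vlasov, h.ampere, h.faraday, h.gauss, h.gauss_mag,
      fun t ht => ?_⟩
    obtain ⟨R, hR⟩ := hs t ht
    refine ⟨R, fun s hs' x v hne => ?_⟩
    have h1 := hR s hs' (coo.symm x) (coo.symm v) (by
      unfold ff
      rw [coo.apply_symm_apply, coo.apply_symm_apply]
      exact hne)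
    rwa [← len_coo, ← len_coo, coo.apply_symm_apply, coo.apply_symm_apply] at h1

end Vale.Agent.P107.Cn
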