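import Vale.Agent.P107.Bdl.B1

/-!
The energy argument on the backward cone: finite speed of propagation for the relativistic
Vlasov-Maxwell system.
-/

attribute [-instance] ProperSMul.toContinuousSMul IsTopologicalTorsor.toContinuousSMul
  IdemSemiring.toCanonicallyOrderedAdd IdemSemiring.toMulLeftMono IdemSemiring.toMulRightMono
  AddQuantale.instAddLeftMono AddQuantale.instAddRightMono Quantale.instMulLeftMono
  Quantale.instMulRightMono FiniteDimensional.rclike_to_real IsScalarTower.complexToReal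
  FiniteDimensional.complexToReal

open MeasureTheory Set Filter Topology
open scoped RealInnerProductSpace ENNReal NNReal

namespace Vale.Agent.P107.Cn

/-- `f` is a `C¹` solution on `[0,T)` of the Vlasov equation with the fields `E, B`, with locally
bounded momentum support. -/
structure KSol (T : ℝ) (f : ℝ → E3 → E3 → ℝ) (E B : ℝ → E3 → E3) : Prop where
  f_contDiff : ContDiffOn ℝ 1 (fun z : ℝ × E3 × E3 => f z.1 z.2.1 z.2.2) (Ico 0 T ×ˢ univ)
  E_contDiff : ContDiffOn ℝ 1 (fun z : ℝ × E3 => E z.1 z.2) (Ico 0 T ×ˢ univ)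
  B_contDiff : ContDiffOn ℝ 1 (fun z : ℝ × E3 => B z.1 z.2) (Ico 0 T ×ˢ univ)
  vlasov : ∀ t ∈ Ico 0 T, ∀ x v,
    derivWithin (fun s => f s x v) (Ico 0 T) t
      + fderiv ℝ (fun y => f t y v) x (u v)
      + fderiv ℝ (fun w => f t x w) v (E t x + cross (u v) (B t x)) = 0
  local_support : ∀ t ∈ Ico 0 T, ∀ R : ℝ, ∃ P : ℝ, ∀ s ∈ Icc 0 t, ∀ x v,
    ‖x‖ ≤ R → f s x v ≠ 0 → ‖v‖ ≤ P

/-- `(f, E, B)` is a `C¹` solution on `[0,T)` with locally bounded momentum support. -/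
structure LSol (T : ℝ) (f : ℝ → E3 → E3 → ℝ) (E B : ℝ → E3 → E3) : Prop extends
    KSol T f E B where
  ampere : ∀ t ∈ Ico 0 T, ∀ x,
    derivWithin (fun s => E s x) (Ico 0 T) t - curl (B t) x = - cur f t x
  faraday : ∀ t ∈ Ico 0 T, ∀ x,
    derivWithin (fun s => B s x) (Ico 0 T) t + curl (E t) x = 0

section Slices

variable {T : ℝ} {f : ℝ → E3 → E3 → ℝ} {E B : ℝ → E3 → E3}

lemma KSol.f_slice (h : KSol T f E B) {t : ℝ} (ht : t ∈ Ico 0 T) :
    ContDiff ℝ 1 fun z : E3 × E3 => f t z.1 z.2 := by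
  have h1 : ContDiffOn ℝ 1 (fun z : E3 × E3 => f t z.1 z.2) univ :=
    h.f_contDiff.comp (f := fun z : E3 × E3 => (t, z)) (by fun_prop)
      (fun z _ => ⟨ht, mem_univ _⟩)
  exact contDiffOn_univ.1 h1

lemma KSol.E_slice (h : KSol T f E B) {t : ℝ} (ht : t ∈ Ico 0 T) : ContDiff ℝ 1 (E t) := by
  have h1 : ContDiffOn ℝ 1 (fun z : E3 => E t z) univ :=
    h.E_contDiff.comp (f := fun z : E3 => (t, z)) (by fun_prop)
      (fun z _ => ⟨ht, mem_univ _⟩)
  exact contDiffOn_univ.1 h1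

lemma KSol.B_slice (h : KSol T f E B) {t : ℝ} (ht : t ∈ Ico 0 T) : ContDiff ℝ 1 (B t) := by
  have h1 : ContDiffOn ℝ 1 (fun z : E3 => B t z) univ :=
    h.B_contDiff.comp (f := fun z : E3 => (t, z)) (by fun_prop)
      (fun z _ => ⟨ht, mem_univ _⟩)
  exact contDiffOn_univ.1 h1

lemma KSol.vlasov_fderiv (h : KSol T f E B) {t : ℝ}
    (ht : t ∈ Ioo 0 T) (z : E3 × E3) :
    fderiv ℝ (fun y : ℝ × E3 × E3 => f y.1 y.2.1 y.2.2) (t, z) (1, 0)
      = - fderiv ℝ (fun y : E3 × E3 => f t y.1 y.2) z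
          (u z.2, E t z.1 + cross (u z.2) (B t z.1)) := by
  have ht' : t ∈ Ico 0 T := Ioo_subset_Ico_self ht
  have h1 := h.vlasov t ht' z.1 z.2
  have h2 : HasDerivAt (fun s => f s z.1 z.2)
      (fderiv ℝ (fun y : ℝ × E3 × E3 => f y.1 y.2.1 y.2.2) (t, z) (1, 0)) t :=
    hasDerivAt_of_slab h.f_contDiff ht z
  rw [derivWithin_of_mem_nhds (Ico_mem_nhds ht.1 ht.2), h2.deriv] at h1
  have hg : HasFDerivAt (fun y : E3 × E3 => f t y.1 y.2)
      (fderiv ℝ (fun y : E3 × E3 => f t y.1 y.2) z) (z.1, z.2) :=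
    (((h.f_slice ht').differentiable (by norm_num)) z).hasFDerivAt
  have h3 : HasFDerivAt (fun y : E3 => f t y z.2)
      ((fderiv ℝ (fun y : E3 × E3 => f t y.1 y.2) z).comp
        (ContinuousLinearMap.inl ℝ E3 E3)) z.1 :=
    HasFDerivAt.comp (f := fun y : E3 => (y, z.2)) z.1 hg (hasFDerivAt_prodMk_left z.1 z.2)
  have h4 : HasFDerivAt (fun y : E3 => f t z.1 y)
      ((fderiv ℝ (fun y : E3 × E3 => f t y.1 y.2) z).comp
        (ContinuousLinearMap.inr ℝ E3 E3)) z.2 :=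
    HasFDerivAt.comp (f := fun y : E3 => (z.1, y)) z.2 hg (hasFDerivAt_prodMk_right z.1 z.2)
  rw [h3.fderiv, h4.fderiv] at h1
  simp only [ContinuousLinearMap.comp_apply, ContinuousLinearMap.inl_apply,
    ContinuousLinearMap.inr_apply] at h1
  rw [add_assoc, ← map_add] at h1
  simp only [Prod.mk_add_mk, add_zero, zero_add] at h1
  linarith only [h1]

lemma LSol.ampere_fderiv (h : LSol T f E B) {t : ℝ}
    (ht : t ∈ Ioo 0 T) (x : E3) :
    fderiv ℝ (fun y : ℝ × E3 => E y.1 y.2) (t, x) (1, 0) = curl (B t) x - cur f t x := by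
  have ht' : t ∈ Ico 0 T := Ioo_subset_Ico_self ht
  have h1 := h.ampere t ht' x
  have h2 : HasDerivAt (fun s => E s x)
      (fderiv ℝ (fun y : ℝ × E3 => E y.1 y.2) (t, x) (1, 0)) t :=
    hasDerivAt_of_slab h.E_contDiff ht x
  rw [derivWithin_of_mem_nhds (Ico_mem_nhds ht.1 ht.2), h2.deriv] at h1
  rw [sub_eq_iff_eq_add] at h1
  rw [h1]
  abel

lemma LSol.faraday_fderiv (h : LSol T f E B) {t : ℝ}
    (ht : t ∈ Ioo 0 T) (x : E3) :
    fderiv ℝ (fun y : ℝ × E3 => B y.1 y.2) (t, x) (1, 0) = - curl (E t) x := by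
  have ht' : t ∈ Ico 0 T := Ioo_subset_Ico_self ht
  have h1 := h.faraday t ht' x
  have h2 : HasDerivAt (fun s => B s x)
      (fderiv ℝ (fun y : ℝ × E3 => B y.1 y.2) (t, x) (1, 0)) t :=
    hasDerivAt_of_slab h.B_contDiff ht x
  rw [derivWithin_of_mem_nhds (Ico_mem_nhds ht.1 ht.2), h2.deriv] at h1
  exact eq_neg_of_add_eq_zero_left h1

end Slices

/-! ### The weight -/

/-- `(s₊)²` -/
noncomputable def th (s : ℝ) : ℝ := (max s 0) ^ 2

lemma th_nonneg (s : ℝ) : 0 ≤ th s := sq_nonneg _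

lemma th_eq_zero {s : ℝ} (hs : s ≤ 0) : th s = 0 := by
  unfold th
  rw [max_eq_right hs]
  norm_num

lemma th_pos {s : ℝ} (hs : 0 < s) : 0 < th s := by
  unfold th
  rw [max_eq_left hs.le]
  positivity

lemma hasDerivAt_th (s : ℝ) : HasDerivAt th (2 * max s 0) s := by
  rcases lt_trichotomy s 0 with hs | hs | hs
  · have h1 : HasDerivAt (fun _ : ℝ => (0 : ℝ)) 0 s := hasDerivAt_const _ _
    rw [max_eq_right hs.le, mul_zero]
    refine h1.congr_of_eventuallyEq ?_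
    filter_upwards [Iio_mem_nhds hs] with r hr
    exact th_eq_zero (le_of_lt hr)
  · subst hs
    rw [max_self, mul_zero, hasDerivAt_iff_isLittleO_nhds_zero]
    have h1 : (fun h : ℝ => th (0 + h) - th 0 - h • (0 : ℝ)) =O[𝓝 0] fun h : ℝ => h ^ 2 := by
      refine Asymptotics.IsBigO.of_bound 1 (Eventually.of_forall fun h => ?_)
      rw [th_eq_zero le_rfl, smul_zero, sub_zero, sub_zero, zero_add, one_mul, Real.norm_eq_abs,
        Real.norm_eq_abs, abs_of_nonneg (th_nonneg h), abs_of_nonneg (sq_nonneg h)]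
      unfold th
      rcases le_total h 0 with hh | hh
      · rw [max_eq_right hh]
        nlinarith [sq_nonneg h]
      · rw [max_eq_left hh]
    refine h1.trans_isLittleO ?_
    have h2 := Asymptotics.isLittleO_pow_id (𝕜 := ℝ) (n := 2) one_lt_two
    exact h2
  · have h1 : HasDerivAt (fun r : ℝ => r ^ 2) (2 * s) s := by
      simpa using hasDerivAt_pow 2 s
    rw [max_eq_left hs.le]
    refine h1.congr_of_eventuallyEq ?_
    filter_upwards [Ioi_mem_nhds hs] with r hr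
    unfold th
    rw [max_eq_left (le_of_lt hr)]

lemma contDiff_th : ContDiff ℝ 1 th := by
  rw [contDiff_one_iff_deriv]
  refine ⟨fun s => (hasDerivAt_th s).differentiableAt, ?_⟩
  have : deriv th = fun s => 2 * max s 0 := by
    funext s
    exact (hasDerivAt_th s).deriv
  rw [this]
  fun_prop

/-- The weight of the cone. -/
noncomputable def ph (R : ℝ) (x₀ : E3) (t : ℝ) (x : E3) : ℝ := th ((R - t) ^ 2 - ‖x - x₀‖ ^ 2)

/-- its derivative factor -/
noncomputable def mh (R : ℝ) (x₀ : E3) (t : ℝ) (x : E3) : ℝ :=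
  max ((R - t) ^ 2 - ‖x - x₀‖ ^ 2) 0

variable {R : ℝ} {x₀ : E3}

lemma ph_nonneg (t : ℝ) (x : E3) : 0 ≤ ph R x₀ t x := th_nonneg _

lemma mh_nonneg (t : ℝ) (x : E3) : 0 ≤ mh R x₀ t x := le_max_right _ _

lemma ph_eq_zero {t : ℝ} (ht : 0 ≤ t) (htR : t ≤ R) {x : E3} (hx : R ≤ ‖x - x₀‖) :
    ph R x₀ t x = 0 := by
  refine th_eq_zero ?_
  nlinarith [norm_nonneg (x - x₀)]

lemma contDiff_ph : ContDiff ℝ 1 fun z : ℝ × E3 => ph R x₀ z.1 z.2 := by
  unfold ph
  refine contDiff_th.comp ?_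
  refine ((contDiff_const.sub contDiff_fst).pow 2).sub ?_
  exact (contDiff_snd.sub contDiff_const).norm_sq ℝ

lemma contDiff_ph_slice (t : ℝ) : ContDiff ℝ 1 (ph R x₀ t) :=
  contDiff_ph.comp (contDiff_const.prodMk contDiff_id)

lemma hasDerivAt_ph (t : ℝ) (x : E3) :
    HasDerivAt (fun s => ph R x₀ s x) (-4 * (R - t) * mh R x₀ t x) t := by
  have h1 : HasDerivAt (fun s : ℝ => (R - s) ^ 2 - ‖x - x₀‖ ^ 2) (2 * (R - t) * (-1)) t := by
    have h2 : HasDerivAt (fun s : ℝ => R - s) (-1) t := by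
      simpa using (hasDerivAt_id t).const_sub R
    have h3 := (h2.pow 2).sub_const (‖x - x₀‖ ^ 2)
    simpa using h3
  have h4 := (hasDerivAt_th ((R - t) ^ 2 - ‖x - x₀‖ ^ 2)).comp t h1
  refine h4.congr_deriv ?_
  unfold mh
  ring

lemma fderiv_ph (t : ℝ) (x a : E3) :
    fderiv ℝ (ph R x₀ t) x a = -4 * ⟪x - x₀, a⟫ * mh R x₀ t x := by
  have h1 : HasFDerivAt (fun y : E3 => (R - t) ^ 2 - ‖y - x₀‖ ^ 2)
      (-(2 • (innerSL ℝ (x - x₀)))) x := by
    have h2 : HasFDerivAt (fun y : E3 => y - x₀) (ContinuousLinearMap.id ℝ E3) x :=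
      (hasFDerivAt_id x).sub_const x₀
    have h3 := h2.norm_sq
    have h4 := h3.const_sub ((R - t) ^ 2)
    simpa using h4
  have h5 := (hasDerivAt_th ((R - t) ^ 2 - ‖x - x₀‖ ^ 2)).comp_hasFDerivAt x h1
  have h6 : fderiv ℝ (ph R x₀ t) x = _ := h5.fderiv
  rw [h6]
  simp only [ContinuousLinearMap.smul_apply, ContinuousLinearMap.neg_apply, innerSL_apply_apply,
    smul_eq_mul]
  unfold mh
  simp
  ring

lemma mh_mul_norm_le {t : ℝ} (htR : t ≤ R) (x : E3) :
    mh R x₀ t x * ‖x - x₀‖ ≤ mh R x₀ t x * (R - t) := by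
  by_cases h : (R - t) ^ 2 - ‖x - x₀‖ ^ 2 ≤ 0
  · unfold mh
    rw [max_eq_right h]
    simp
  · push Not at h
    refine mul_le_mul_of_nonneg_left ?_ (mh_nonneg t x)
    exact (abs_le_of_sq_le_sq' (by linarith) (by linarith)).2

end Vale.Agent.P107.Cn
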