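import Vale.Agent.P107.H15.Cone

/-!
Space and momentum integrations for the energy argument on the cone.
-/

attribute [-instance] ProperSMul.toContinuousSMul IsTopologicalTorsor.toContinuousSMul
  IdemSemiring.toCanonicallyOrderedAdd IdemSemiring.toMulLeftMono IdemSemiring.toMulRightMono
  AddQuantale.instAddLeftMono AddQuantale.instAddRightMono Quantale.instMulLeftMono
  Quantale.instMulRightMono FiniteDimensional.rclike_to_real IsScalarTower.complexToReal
  FiniteDimensional.complexToReal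

open MeasureTheory Set Filter Topology
open scoped RealInnerProductSpace ENNReal NNReal

namespace Vale.Agent.P107.Cn

lemma inner_cross_self (a b : E3) : ⟪a, cross a b⟫ = 0 := by
  simp only [PiLp.inner_apply, Fin.sum_univ_three, cross]
  simp
  ring

lemma fderiv_inv_q_mul {g : E3 × E3 → ℝ} (hg : ContDiff ℝ 1 g) (z a : E3 × E3) :
    fderiv ℝ (fun z : E3 × E3 => (q z.2)⁻¹ * g z) z a
      = (q z.2)⁻¹ * fderiv ℝ g z a - g z * ((q z.2)⁻¹ ^ 2 * ⟪u z.2, a.2⟫) := by
  have h3 : HasFDerivAt (fun z : E3 × E3 => q z.2)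
      (((q z.2)⁻¹ • innerSL ℝ z.2).comp (ContinuousLinearMap.snd ℝ E3 E3)) z :=
    (hasFDerivAt_q z.2).comp z hasFDerivAt_snd
  have h4 := (hasDerivAt_inv (q_pos z.2).ne').comp_hasFDerivAt z h3
  have h5 : HasFDerivAt g (fderiv ℝ g z) z :=
    (hg.differentiable (by norm_num)).differentiableAt.hasFDerivAt
  have h6 := h4.mul h5
  have h7 : fderiv ℝ (fun z : E3 × E3 => (q z.2)⁻¹ * g z) z = _ := h6.fderiv
  rw [h7]
  have h8 : ⟪u z.2, a.2⟫ = (q z.2)⁻¹ * ⟪z.2, a.2⟫ := by
    unfold u
    rw [real_inner_smul_left]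
  rw [h8]
  simp
  ring

lemma transport_ibp {g : E3 × E3 → ℝ} (hg : ContDiff ℝ 1 g) (hc : HasCompactSupport g)
    {F H : E3 → E3} (hF : ContDiff ℝ 1 F) (hH : ContDiff ℝ 1 H) :
    ∫ z : E3 × E3, fderiv ℝ g z (u z.2, F z.1 + cross (u z.2) (H z.1)) = 0 := by
  have := isAddHaar_prod
  have hq : ContDiff ℝ 1 fun z : E3 × E3 => (q z.2)⁻¹ :=
    (q_contDiff.comp contDiff_snd).inv fun z => (q_pos _).ne'
  have hg' : ContDiff ℝ 1 fun z : E3 × E3 => (q z.2)⁻¹ * g z := hq.mul hg
  have hc' : HasCompactSupport fun z : E3 × E3 => (q z.2)⁻¹ * g z :=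
    HasCompactSupport.mul_left hc
  have h1 := vlasov_ibp hg' hc' hF hH
  have e1 : ∀ z : E3 × E3, q z.2 * fderiv ℝ (fun z : E3 × E3 => (q z.2)⁻¹ * g z) z
      (u z.2, F z.1 + cross (u z.2) (H z.1))
      = fderiv ℝ g z (u z.2, F z.1 + cross (u z.2) (H z.1))
        - ((q z.2)⁻¹ * g z) * ⟪u z.2, F z.1⟫ := by
    intro z
    rw [fderiv_inv_q_mul hg]
    simp only [inner_add_right, inner_cross_self, add_zero]
    have := (q_pos z.2).ne'
    field_simp
  simp_rw [e1] at h1
  have cu : Continuous fun z : E3 × E3 => u z.2 := continuous_u.comp continuous_snd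
  have cF : Continuous fun z : E3 × E3 => F z.1 := hF.continuous.comp continuous_fst
  have cH : Continuous fun z : E3 × E3 => cross (u z.2) (H z.1) :=
    (contDiff_cross (u_contDiff.comp contDiff_snd) (hH.comp contDiff_fst)).continuous
  have i1 : Integrable fun z : E3 × E3 =>
      fderiv ℝ g z (u z.2, F z.1 + cross (u z.2) (H z.1)) := by
    refine Continuous.integrable_of_hasCompactSupport ?_ ?_
    · exact (hg.continuous_fderiv (by norm_num)).clm_apply (cu.prodMk (cF.add cH))
    · refine HasCompactSupport.intro (hc.fderiv (𝕜 := ℝ)) fun x hx => ?_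
      rw [image_eq_zero_of_notMem_tsupport hx]
      simp
  have i2 : Integrable fun z : E3 × E3 => ((q z.2)⁻¹ * g z) * ⟪u z.2, F z.1⟫ :=
    (hg'.continuous.mul (cu.inner cF)).integrable_of_hasCompactSupport
      (HasCompactSupport.mul_right hc')
  rw [integral_sub i1 i2] at h1
  linarith only [h1]

end Vale.Agent.P107.Cn
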