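import Vale.Agent.P107.H15.Cone2

/-!
The energy of the difference of two solutions on the backward cone.
-/

attribute [-instance] ProperSMul.toContinuousSMul IsTopologicalTorsor.toContinuousSMul
  IdemSemiring.toCanonicallyOrderedAdd IdemSemiring.toMulLeftMono IdemSemiring.toMulRightMono
  AddQuantale.instAddLeftMono AddQuantale.instAddRightMono Quantale.instMulLeftMono
  Quantale.instMulRightMono FiniteDimensional.rclike_to_real IsScalarTower.complexToReal
  FiniteDimensional.complexToReal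

open MeasureTheory Set Filter Topology
open scoped RealInnerProductSpace ENNReal NNReal

namespace Vale.Agent.P107.Cn

/-- Fubini for the work of the current. -/
lemma integral_work {W : E3 × E3 → ℝ} (hW : Continuous W) (hc : HasCompactSupport W)
    {H : E3 → E3} (hH : Continuous H) :
    ∫ z : E3 × E3, W z * ⟪u z.2, H z.1⟫ = ∫ x, ⟪H x, ∫ v, W (x, v) • u v⟫ := by
  have := isAddHaar_prod
  have hint : Integrable (fun z : E3 × E3 => W z * ⟪u z.2, H z.1⟫) := by
    refine Continuous.integrable_of_hasCompactSupport ?_ (HasCompactSupport.mul_right hc)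
    exact hW.mul ((continuous_u.comp continuous_snd).inner (hH.comp continuous_fst))
  rw [Measure.volume_eq_prod, integral_prod _ (by rwa [← Measure.volume_eq_prod])]
  refine integral_congr_ae (ae_of_all _ fun x => ?_)
  have hfv : Continuous fun v => W (x, v) := hW.comp (f := fun v : E3 => (x, v)) (by fun_prop)
  have hsupp : HasCompactSupport fun v => W (x, v) := by
    refine HasCompactSupport.intro (hc.image continuous_snd) fun v hv => ?_
    by_contra hne
    exact hv ⟨(x, v), subset_tsupport _ hne, rfl⟩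
  have hi : Integrable fun v => W (x, v) • u v :=
    (hfv.smul continuous_u).integrable_of_hasCompactSupport (HasCompactSupport.smul_right hsupp)
  show ∫ v, W (x, v) * ⟪u v, H x⟫ = ⟪H x, ∫ v, W (x, v) • u v⟫
  rw [← integral_inner hi]
  refine integral_congr_ae (ae_of_all _ fun v => ?_)
  show W (x, v) * ⟪u v, H x⟫ = ⟪H x, W (x, v) • u v⟫
  rw [real_inner_smul_right, real_inner_comm]

/-- the indicator of a ball of momenta -/
noncomputable def ind (P : ℝ) (v : E3) : ℝ := (Metric.closedBall (0 : E3) P).indicator (fun _ => 1) v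

/-- its volume -/
noncomputable def vo (P : ℝ) : ℝ := ∫ v, ind P v

lemma ind_nonneg (P : ℝ) (v : E3) : 0 ≤ ind P v := indicator_nonneg (fun _ _ => zero_le_one) _

lemma ind_eq_one {P : ℝ} {v : E3} (hv : ‖v‖ ≤ P) : ind P v = 1 :=
  indicator_of_mem (by simpa using hv) _

lemma vo_nonneg (P : ℝ) : 0 ≤ vo P := integral_nonneg (ind_nonneg P)

lemma integrable_ind (P : ℝ) : Integrable (ind P) := by
  unfold ind
  rw [integrable_indicator_iff Metric.isClosed_closedBall.measurableSet]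
  exact integrableOn_const (isCompact_closedBall _ _).measure_ne_top

lemma integrable_mul_ind {m : E3 → ℝ} (hm : Integrable m) (P : ℝ) :
    Integrable fun z : E3 × E3 => m z.1 * ind P z.2 := by
  rw [Measure.volume_eq_prod]
  exact hm.mul_prod (integrable_ind P)

lemma integral_mul_ind (m : E3 → ℝ) (P : ℝ) :
    ∫ z : E3 × E3, m z.1 * ind P z.2 = (∫ x, m x) * vo P := by
  rw [Measure.volume_eq_prod]
  exact integral_prod_mul m (ind P)

section Slice

variable {R P t L : ℝ} {x₀ : E3}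

/-- The pointwise bound of the kinetic production. -/
lemma kin_pointwise (htR : t ≤ R) (hL : 0 ≤ L) {x v e b : E3} {w D : ℝ}
    (hD : |D| ≤ L * ‖e + cross (u v) b‖) :
    -4 * (R - t) * mh R x₀ t x * w ^ 2 + fderiv ℝ (ph R x₀ t) x (u v) * w ^ 2
        - 2 * (ph R x₀ t x * w * D)
      ≤ L * (ph R x₀ t x * w ^ 2) + 2 * L * (ph R x₀ t x * (‖e‖ ^ 2 + ‖b‖ ^ 2)) := by
  have hu : ‖u v‖ ≤ 1 := (norm_u_lt_one v).le
  have h1 : mh R x₀ t x * ‖x - x₀‖ ≤ mh R x₀ t x * (R - t) := mh_mul_norm_le htR x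
  have h2 : |⟪x - x₀, u v⟫| ≤ ‖x - x₀‖ := abs_inner_le_of_norm_le_one _ _ hu
  have h3 : -‖x - x₀‖ ≤ ⟪x - x₀, u v⟫ := (abs_le.1 h2).1
  have h4 : 0 ≤ mh R x₀ t x := mh_nonneg t x
  have h5 : 0 ≤ mh R x₀ t x * (R - t) + mh R x₀ t x * ⟪x - x₀, u v⟫ := by
    have := mul_le_mul_of_nonneg_left h3 h4
    linarith
  have h6 : -4 * (R - t) * mh R x₀ t x * w ^ 2 + fderiv ℝ (ph R x₀ t) x (u v) * w ^ 2 ≤ 0 := by
    rw [fderiv_ph]
    have := mul_nonneg h5 (sq_nonneg w)
    nlinarith only [this]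
  have h7 : ‖e + cross (u v) b‖ ≤ ‖e‖ + ‖b‖ := by
    refine (norm_add_le _ _).trans (add_le_add_right ?_ _)
    refine (norm_cross_le _ _).trans ?_
    exact mul_le_of_le_one_left (norm_nonneg _) hu
  have h8 : ‖e + cross (u v) b‖ ^ 2 ≤ 2 * (‖e‖ ^ 2 + ‖b‖ ^ 2) := by
    have h0 : 0 ≤ ‖e + cross (u v) b‖ := norm_nonneg _
    nlinarith [sq_nonneg (‖e‖ - ‖b‖)]
  have h9 : - 2 * (w * D) ≤ L * w ^ 2 + 2 * L * (‖e‖ ^ 2 + ‖b‖ ^ 2) := by
    have a1 : - (w * D) ≤ |w| * |D| := by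
      rw [← abs_mul]
      exact neg_le_abs _
    have a2 : |w| * |D| ≤ |w| * (L * ‖e + cross (u v) b‖) :=
      mul_le_mul_of_nonneg_left hD (abs_nonneg _)
    have a3 : 2 * (|w| * ‖e + cross (u v) b‖) ≤ w ^ 2 + ‖e + cross (u v) b‖ ^ 2 := by
      rw [← sq_abs w]
      nlinarith [sq_nonneg (|w| - ‖e + cross (u v) b‖)]
    have a4 := mul_le_mul_of_nonneg_left a3 hL
    have a5 := mul_le_mul_of_nonneg_left h8 hL
    nlinarith only [a1, a2, a4, a5]
  have h10 := mul_le_mul_of_nonneg_left h9 (ph_nonneg (R := R) (x₀ := x₀) t x)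
  nlinarith only [h6, h10]

/-- The pointwise bound of the field production. -/
lemma field_pointwise (htR : t ≤ R) {x e b : E3} :
    -4 * (R - t) * mh R x₀ t x * (‖e‖ ^ 2 + ‖b‖ ^ 2)
      + 2 * fderiv ℝ (ph R x₀ t) x (cross e b) ≤ 0 := by
  rw [fderiv_ph]
  have h1 : mh R x₀ t x * ‖x - x₀‖ ≤ mh R x₀ t x * (R - t) := mh_mul_norm_le htR x
  have h2 : |⟪x - x₀, cross e b⟫| ≤ ‖x - x₀‖ * (‖e‖ * ‖b‖) :=
    (abs_real_inner_le_norm _ _).trans
      (mul_le_mul_of_nonneg_left (norm_cross_le e b) (norm_nonneg _))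
  have h3 : -(‖x - x₀‖ * (‖e‖ * ‖b‖)) ≤ ⟪x - x₀, cross e b⟫ := (abs_le.1 h2).1
  have h4 : 0 ≤ mh R x₀ t x := mh_nonneg t x
  have h5 := mul_le_mul_of_nonneg_left h3 h4
  have h6 := mul_le_mul_of_nonneg_right h1 (mul_nonneg (norm_nonneg e) (norm_nonneg b))
  have h7 : 2 * (‖e‖ * ‖b‖) ≤ ‖e‖ ^ 2 + ‖b‖ ^ 2 := by nlinarith [sq_nonneg (‖e‖ - ‖b‖)]
  have h8 := mul_le_mul_of_nonneg_left h7 (mul_nonneg h4 (sub_nonneg.2 htR))
  nlinarith only [h5, h6, h8]

end Slice

end Vale.Agent.P107.Cn
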