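import Vale.Agent.P107.H15.Cone3

/-!
The kinetic part of the energy of the difference of two solutions on the backward cone.
-/

attribute [-instance] ProperSMul.toContinuousSMul IsTopologicalTorsor.toContinuousSMul
  IdemSemiring.toCanonicallyOrderedAdd IdemSemiring.toMulLeftMono IdemSemiring.toMulRightMono
  AddQuantale.instAddLeftMono AddQuantale.instAddRightMono Quantale.instMulLeftMono
  Quantale.instMulRightMono FiniteDimensional.rclike_to_real IsScalarTower.complexToReal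
  FiniteDimensional.complexToReal

open MeasureTheory Set Filter Topology
open scoped RealInnerProductSpace ENNReal NNReal

namespace Vale.Agent.P107.Cn

variable {T : ℝ} {f g : ℝ → E3 → E3 → ℝ} {E B E' B' : ℝ → E3 → E3} {R P b t : ℝ} {x₀ : E3}

/-- The bound of the momenta above a ball. -/
def MB (x₀ : E3) (R P b : ℝ) (f : ℝ → E3 → E3 → ℝ) : Prop :=
  ∀ s ∈ Icc 0 b, ∀ x v, ‖x - x₀‖ ≤ R → f s x v ≠ 0 → ‖v‖ ≤ P

lemma KSol.exists_MB (h : KSol T f E B) (hb : b ∈ Ico 0 T) (x₀ : E3) (R : ℝ) :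
    ∃ P, MB x₀ R P b f := by
  obtain ⟨P, hP⟩ := h.local_support b hb (‖x₀‖ + R)
  refine ⟨P, fun s hs x v hx hne => hP s hs x v ?_ hne⟩
  have : ‖x‖ ≤ ‖x₀‖ + ‖x - x₀‖ := by
    have := norm_add_le x₀ (x - x₀)
    rwa [add_sub_cancel] at this
  linarith

lemma MB.mono {P P' : ℝ} (h : MB x₀ R P b f) (hP : P ≤ P') : MB x₀ R P' b f :=
  fun s hs x v hx hne => (h s hs x v hx hne).trans hP

/-- The compact set which carries the integrands. -/
def KR (x₀ : E3) (R P : ℝ) : Set (E3 × E3) := Metric.closedBall x₀ R ×ˢ Metric.closedBall 0 P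

lemma isCompact_KR' : IsCompact (KR x₀ R P) :=
  (isCompact_closedBall _ _).prod (isCompact_closedBall _ _)

lemma ph_eq_zero' (hbR : b ≤ R) {s : ℝ} (hs : s ∈ Icc 0 b) {x : E3}
    (hx : x ∉ Metric.closedBall x₀ R) : ph R x₀ s x = 0 := by
  refine ph_eq_zero hs.1 (hs.2.trans hbR) ?_
  rw [mem_closedBall_iff_norm, not_le] at hx
  exact hx.le

lemma zero_off (hf : MB x₀ R P b f) (hg : MB x₀ R P b g) (hbR : b ≤ R) {s : ℝ}
    (hs : s ∈ Icc 0 b) {z : E3 × E3} (hz : z ∉ KR x₀ R P) :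
    ph R x₀ s z.1 = 0 ∨ (f s z.1 z.2 = 0 ∧ g s z.1 z.2 = 0) := by
  by_cases hx : z.1 ∈ Metric.closedBall x₀ R
  · right
    have hx' : ‖z.1 - x₀‖ ≤ R := by rwa [mem_closedBall_iff_norm] at hx
    have hv : ¬ ‖z.2‖ ≤ P := fun hv => hz ⟨hx, by simpa using hv⟩
    constructor
    · by_contra hne
      exact hv (hf s hs _ _ hx' hne)
    · by_contra hne
      exact hv (hg s hs _ _ hx' hne)
  · left
    exact ph_eq_zero' hbR hs hx

lemma continuous_ph2 : Continuous fun z : ℝ × E3 => ph R x₀ z.1 z.2 := contDiff_ph.continuous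

lemma continuous_mh2 : Continuous fun z : ℝ × E3 => mh R x₀ z.1 z.2 := by
  unfold mh
  fun_prop

/-- The kinetic part. -/
noncomputable def KK (R : ℝ) (x₀ : E3) (f g : ℝ → E3 → E3 → ℝ) (s : ℝ) : ℝ :=
  ∫ z : E3 × E3, ph R x₀ s z.1 * (f s z.1 z.2 - g s z.1 z.2) ^ 2

lemma KK_nonneg (s : ℝ) : 0 ≤ KK R x₀ f g s :=
  integral_nonneg fun _ => mul_nonneg (ph_nonneg _ _) (sq_nonneg _)

/-- the integrand of the time derivative -/
noncomputable def KK' (R : ℝ) (x₀ : E3) (f g : ℝ → E3 → E3 → ℝ) (s : ℝ) (z : E3 × E3) : ℝ :=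
  -4 * (R - s) * mh R x₀ s z.1 * (f s z.1 z.2 - g s z.1 z.2) ^ 2
    + ph R x₀ s z.1 * (2 * (f s z.1 z.2 - g s z.1 z.2)
      * (fderiv ℝ (fun y : ℝ × E3 × E3 => f y.1 y.2.1 y.2.2) (s, z) (1, 0)
        - fderiv ℝ (fun y : ℝ × E3 × E3 => g y.1 y.2.1 y.2.2) (s, z) (1, 0)))

lemma hasDerivAt_KK (h : KSol T f E B) (h' : KSol T g E' B') (hb : b ∈ Ico 0 T) (hbR : b ≤ R)
    (hf : MB x₀ R P b f) (hg : MB x₀ R P b g) (ht : t ∈ Ioo 0 b) :
    HasDerivAt (KK R x₀ f g) (∫ z, KK' R x₀ f g t z) t := by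
  have := isAddHaar_prod
  have hsub : Ioo 0 b ⊆ Ioo 0 T := Ioo_subset_Ioo_right hb.2.le
  refine hasDerivAt_integral_of_compact (μ := (volume : Measure (E3 × E3))) (a := 0) (b := b)
    (F := fun s (z : E3 × E3) => ph R x₀ s z.1 * (f s z.1 z.2 - g s z.1 z.2) ^ 2)
    (F' := KK' R x₀ f g) (isCompact_KR' (x₀ := x₀) (R := R) (P := P)) ?_ ?_ ?_ ?_ ht
  · intro s hs z hz
    show ph R x₀ s z.1 * (f s z.1 z.2 - g s z.1 z.2) ^ 2 = 0
    rcases zero_off hf hg hbR (Ioo_subset_Icc_self hs) hz with h0 | ⟨h0, h1⟩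
    · rw [h0, zero_mul]
    · rw [h0, h1, sub_zero, zero_pow two_ne_zero, mul_zero]
  · intro s hs z
    have h1 := hasDerivAt_of_slab h.f_contDiff (hsub hs) z
    have h2 := hasDerivAt_of_slab h'.f_contDiff (hsub hs) z
    have h3 := (hasDerivAt_ph (R := R) (x₀ := x₀) s z.1).mul ((h1.sub h2).pow 2)
    refine h3.congr_deriv ?_
    unfold KK'
    simp
  · intro s hs
    have h1 := (h.f_slice (Ioo_subset_Ico_self (hsub hs))).continuous
    have h2 := (h'.f_slice (Ioo_subset_Ico_self (hsub hs))).continuous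
    exact ((contDiff_ph_slice s).continuous.comp continuous_fst).mul ((h1.sub h2).pow 2)
  · have h1 : ContinuousOn (fun y : ℝ × E3 × E3 => f y.1 y.2.1 y.2.2) (Ioo 0 b ×ˢ univ) :=
      h.f_contDiff.continuousOn.mono
        (prod_mono (hsub.trans Ioo_subset_Ico_self) (subset_refl _))
    have h2 : ContinuousOn (fun y : ℝ × E3 × E3 => g y.1 y.2.1 y.2.2) (Ioo 0 b ×ˢ univ) :=
      h'.f_contDiff.continuousOn.mono
        (prod_mono (hsub.trans Ioo_subset_Ico_self) (subset_refl _))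
    have h3 := (continuousOn_fderiv_of_slab h.f_contDiff).mono
      (prod_mono hsub (subset_refl univ))
    have h4 := (continuousOn_fderiv_of_slab h'.f_contDiff).mono
      (prod_mono hsub (subset_refl univ))
    have h5 : Continuous fun y : ℝ × E3 × E3 => mh R x₀ y.1 y.2.1 :=
      continuous_mh2.comp (f := fun y : ℝ × E3 × E3 => (y.1, y.2.1)) (by fun_prop)
    have h6 : Continuous fun y : ℝ × E3 × E3 => ph R x₀ y.1 y.2.1 :=
      continuous_ph2.comp (f := fun y : ℝ × E3 × E3 => (y.1, y.2.1)) (by fun_prop)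
    unfold KK'
    refine ContinuousOn.add ?_ ?_
    · refine ContinuousOn.mul (Continuous.continuousOn ?_) ((h1.sub h2).pow 2)
      exact (by fun_prop : Continuous fun y : ℝ × E3 × E3 => -4 * (R - y.1)).mul h5
    · exact h6.continuousOn.mul (((h1.sub h2).const_mul 2).mul (h3.sub h4))

lemma continuousOn_KK (h : KSol T f E B) (h' : KSol T g E' B') (hb : b ∈ Ico 0 T) (hbR : b ≤ R)
    (hf : MB x₀ R P b f) (hg : MB x₀ R P b g) :
    ContinuousOn (KK R x₀ f g) (Icc 0 b) := by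
  have := isAddHaar_prod
  have hsub : Icc 0 b ⊆ Ico 0 T := Icc_subset_Ico_right hb.2
  refine continuousOn_integral_of_compact_support
    (isCompact_KR' (x₀ := x₀) (R := R) (P := P)) ?_ ?_
  · refine ContinuousOn.mul ?_ ?_
    · exact (continuous_ph2.comp (f := fun y : ℝ × E3 × E3 => (y.1, y.2.1))
        (by fun_prop)).continuousOn
    · exact ((h.f_contDiff.continuousOn.mono (prod_mono hsub (subset_refl _))).sub
        (h'.f_contDiff.continuousOn.mono (prod_mono hsub (subset_refl _)))).pow 2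
  · intro s z hs hz
    rcases zero_off hf hg hbR hs hz with h0 | ⟨h0, h1⟩
    · rw [h0, zero_mul]
    · rw [h0, h1, sub_zero, zero_pow two_ne_zero, mul_zero]

/-- A bound of the momentum derivatives. -/
lemma KSol.exists_deriv_bound (h : KSol T f E B) (hb : b ∈ Ico 0 T) {K : Set (E3 × E3)}
    (hK : IsCompact K) :
    ∃ L, 0 ≤ L ∧ ∀ s ∈ Ioo 0 b, ∀ z ∈ K, ∀ a : E3,
      |fderiv ℝ (fun y : E3 × E3 => f s y.1 y.2) z (0, a)| ≤ L * ‖a‖ := by
  have hu : UniqueDiffOn ℝ (Ico 0 T ×ˢ (univ : Set (E3 × E3))) :=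
    (uniqueDiffOn_Ico 0 T).prod uniqueDiffOn_univ
  have h1 := h.f_contDiff.continuousOn_fderivWithin hu le_rfl
  have hsub : Icc 0 b ×ˢ K ⊆ Ico 0 T ×ˢ (univ : Set (E3 × E3)) :=
    prod_mono (Icc_subset_Ico_right hb.2) (subset_univ _)
  obtain ⟨L, hL⟩ := (isCompact_Icc.prod hK).exists_bound_of_continuousOn (h1.mono hsub)
  refine ⟨max L 0, le_max_right _ _, fun s hs z hz a => ?_⟩
  have hsT : s ∈ Ioo 0 T := ⟨hs.1, hs.2.trans hb.2⟩
  have hn : Ico 0 T ×ˢ (univ : Set (E3 × E3)) ∈ 𝓝 (s, z) :=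
    prod_mem_nhds (Ico_mem_nhds hsT.1 hsT.2) univ_mem
  have h2 := hL (s, z) ⟨Ioo_subset_Icc_self hs, hz⟩
  rw [fderivWithin_of_mem_nhds hn] at h2
  have h3 : HasFDerivAt (fun y : ℝ × E3 × E3 => f y.1 y.2.1 y.2.2)
      (fderiv ℝ (fun y : ℝ × E3 × E3 => f y.1 y.2.1 y.2.2) (s, z)) (s, z) :=
    ((contDiffAt_of_slab h.f_contDiff hsT z).differentiableAt (by norm_num)).hasFDerivAt
  have h4 : HasFDerivAt (fun y : E3 × E3 => f s y.1 y.2)
      ((fderiv ℝ (fun y : ℝ × E3 × E3 => f y.1 y.2.1 y.2.2) (s, z)).comp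
        (ContinuousLinearMap.inr ℝ ℝ (E3 × E3))) z :=
    HasFDerivAt.comp (f := fun y : E3 × E3 => (s, y)) z h3 (hasFDerivAt_prodMk_right s z)
  rw [h4.fderiv]
  simp only [ContinuousLinearMap.comp_apply, ContinuousLinearMap.inr_apply]
  rw [← Real.norm_eq_abs]
  refine (ContinuousLinearMap.le_opNorm _ _).trans ?_
  have h5 : ‖((0 : ℝ), ((0 : E3), a))‖ = ‖a‖ := by
    simp [Prod.norm_def]
  rw [h5]
  exact mul_le_mul_of_nonneg_right (h2.trans (le_max_left _ _)) (norm_nonneg _)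

end Vale.Agent.P107.Cn
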