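import Vale.Agent.P107.H15.Cone4

/-!
The growth of the kinetic part.
-/

attribute [-instance] ProperSMul.toContinuousSMul IsTopologicalTorsor.toContinuousSMul
  IdemSemiring.toCanonicallyOrderedAdd IdemSemiring.toMulLeftMono IdemSemiring.toMulRightMono
  AddQuantale.instAddLeftMono AddQuantale.instAddRightMono Quantale.instMulLeftMono
  Quantale.instMulRightMono FiniteDimensional.rclike_to_real IsScalarTower.complexToReal
  FiniteDimensional.complexToReal

open MeasureTheory Set Filter Topology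
open scoped RealInnerProductSpace ENNReal NNReal

namespace Vale.Agent.P107.Cn

variable {T : ℝ} {f g : ℝ → E3 → E3 → ℝ} {E B E' B' : ℝ → E3 → E3} {R P b t : ℝ} {x₀ : E3}

/-- the density of the field part -/
noncomputable def fd (R : ℝ) (x₀ : E3) (E B E' B' : ℝ → E3 → E3) (s : ℝ) (x : E3) : ℝ :=
  ph R x₀ s x * (‖E s x - E' s x‖ ^ 2 + ‖B s x - B' s x‖ ^ 2)

lemma fd_nonneg (s : ℝ) (x : E3) : 0 ≤ fd R x₀ E B E' B' s x :=
  mul_nonneg (ph_nonneg _ _) (by positivity)

/-- The field part. -/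
noncomputable def MM (R : ℝ) (x₀ : E3) (E B E' B' : ℝ → E3 → E3) (s : ℝ) : ℝ :=
  ∫ x, fd R x₀ E B E' B' s x

lemma MM_nonneg (s : ℝ) : 0 ≤ MM R x₀ E B E' B' s := integral_nonneg fun _ => fd_nonneg _ _

lemma mh_eq_zero_of_ph {s : ℝ} {x : E3} (h : ph R x₀ s x = 0) : mh R x₀ s x = 0 := by
  unfold ph th at h
  exact pow_eq_zero_iff two_ne_zero |>.1 h

lemma cross_sub (a b c : E3) : cross a b - cross a c = cross a (b - c) := by
  ext i
  fin_cases i <;> simp [cross] <;> ring

lemma hasCompactSupport_ph (hbR : b ≤ R) {s : ℝ} (hs : s ∈ Icc 0 b) :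
    HasCompactSupport (ph R x₀ s) :=
  HasCompactSupport.intro (isCompact_closedBall x₀ R) fun _ hx => ph_eq_zero' hbR hs hx

lemma continuous_fd (h : KSol T f E B) (h' : KSol T g E' B') {s : ℝ} (hs : s ∈ Ico 0 T) :
    Continuous (fd R x₀ E B E' B' s) := by
  have h1 := (h.E_slice hs).continuous
  have h2 := (h'.E_slice hs).continuous
  have h3 := (h.B_slice hs).continuous
  have h4 := (h'.B_slice hs).continuous
  exact (contDiff_ph_slice s).continuous.mul
    (((h1.sub h2).norm.pow 2).add ((h3.sub h4).norm.pow 2))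

lemma integrable_fd (h : KSol T f E B) (h' : KSol T g E' B') (hb : b ∈ Ico 0 T) (hbR : b ≤ R)
    {s : ℝ} (hs : s ∈ Icc 0 b) : Integrable (fd R x₀ E B E' B' s) := by
  refine (continuous_fd h h' (Icc_subset_Ico_right hb.2 hs)).integrable_of_hasCompactSupport ?_
  exact HasCompactSupport.mul_right (hasCompactSupport_ph hbR hs)

lemma integrable_kin (h : KSol T f E B) (h' : KSol T g E' B') (hb : b ∈ Ico 0 T) (hbR : b ≤ R)
    (hf : MB x₀ R P b f) (hg : MB x₀ R P b g) {s : ℝ} (hs : s ∈ Icc 0 b) :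
    Integrable fun z : E3 × E3 => ph R x₀ s z.1 * (f s z.1 z.2 - g s z.1 z.2) ^ 2 := by
  have := isAddHaar_prod
  have h1 := (h.f_slice (Icc_subset_Ico_right hb.2 hs)).continuous
  have h2 := (h'.f_slice (Icc_subset_Ico_right hb.2 hs)).continuous
  refine Continuous.integrable_of_hasCompactSupport
    (((contDiff_ph_slice s).continuous.comp continuous_fst).mul ((h1.sub h2).pow 2)) ?_
  refine HasCompactSupport.intro (isCompact_KR' (x₀ := x₀) (R := R) (P := P)) fun z hz => ?_
  rcases zero_off hf hg hbR hs hz with h0 | ⟨h0, h1⟩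
  · rw [h0, zero_mul]
  · rw [h0, h1, sub_zero, zero_pow two_ne_zero, mul_zero]

/-- The growth of the kinetic part. -/
lemma KK_growth (h : KSol T f E B) (h' : KSol T g E' B') (hb : b ∈ Ico 0 T) (hbR : b ≤ R)
    (hf : MB x₀ R P b f) (hg : MB x₀ R P b g) (ht : t ∈ Ioo 0 b) {L : ℝ} (hL : 0 ≤ L)
    (hD : ∀ z ∈ KR x₀ R P, ∀ a : E3,
      |fderiv ℝ (fun y : E3 × E3 => g t y.1 y.2) z (0, a)| ≤ L * ‖a‖) :
    ∫ z, KK' R x₀ f g t z
      ≤ L * KK R x₀ f g t + 2 * L * (MM R x₀ E B E' B' t * vo P) := by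
  have := isAddHaar_prod
  have htb : t ∈ Icc 0 b := Ioo_subset_Icc_self ht
  have htT : t ∈ Ioo 0 T := ⟨ht.1, ht.2.trans hb.2⟩
  have htT' : t ∈ Ico 0 T := Ioo_subset_Ico_self htT
  have htR : t ≤ R := ht.2.le.trans hbR
  set w : E3 × E3 → ℝ := fun z => f t z.1 z.2 - g t z.1 z.2 with hw
  have hf1 := h.f_slice htT'
  have hg1 := h'.f_slice htT'
  have hw1 : ContDiff ℝ 1 w := hf1.sub hg1
  have hph1 : ContDiff ℝ 1 fun z : E3 × E3 => ph R x₀ t z.1 :=
    (contDiff_ph_slice t).comp contDiff_fst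
  have hG1 : ContDiff ℝ 1 fun z : E3 × E3 => ph R x₀ t z.1 * w z ^ 2 := hph1.mul (hw1.pow 2)
  have hGc : HasCompactSupport fun z : E3 × E3 => ph R x₀ t z.1 * w z ^ 2 := by
    refine HasCompactSupport.intro (isCompact_KR' (x₀ := x₀) (R := R) (P := P)) fun z hz => ?_
    rcases zero_off hf hg hbR htb hz with h0 | ⟨h0, h1⟩
    · rw [h0, zero_mul]
    · rw [hw]
      simp only
      rw [h0, h1, sub_zero, zero_pow two_ne_zero, mul_zero]
  have htr := transport_ibp hG1 hGc (h.E_slice htT') (h.B_slice htT')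
  -- the derivative of the weighted square
  have hGd : ∀ z a : E3 × E3, fderiv ℝ (fun z : E3 × E3 => ph R x₀ t z.1 * w z ^ 2) z a
      = fderiv ℝ (ph R x₀ t) z.1 a.1 * w z ^ 2
        + ph R x₀ t z.1 * (2 * w z * (fderiv ℝ (fun y : E3 × E3 => f t y.1 y.2) z a
          - fderiv ℝ (fun y : E3 × E3 => g t y.1 y.2) z a)) := by
    intro z a
    have a1 : HasFDerivAt (ph R x₀ t) (fderiv ℝ (ph R x₀ t) z.1) z.1 :=
      ((contDiff_ph_slice t).differentiable (by norm_num)).differentiableAt.hasFDerivAt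
    have a2 : HasFDerivAt (fun z : E3 × E3 => ph R x₀ t z.1)
        ((fderiv ℝ (ph R x₀ t) z.1).comp (ContinuousLinearMap.fst ℝ E3 E3)) z :=
      a1.comp z hasFDerivAt_fst
    have a3 : HasFDerivAt w (fderiv ℝ (fun y : E3 × E3 => f t y.1 y.2) z
        - fderiv ℝ (fun y : E3 × E3 => g t y.1 y.2) z) z :=
      (hf1.differentiable (by norm_num)).differentiableAt.hasFDerivAt.sub
        (hg1.differentiable (by norm_num)).differentiableAt.hasFDerivAt
    have a4 := a2.mul (a3.pow 2)
    have a5 : fderiv ℝ (fun z : E3 × E3 => ph R x₀ t z.1 * w z ^ 2) z = _ := a4.fderiv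
    rw [a5]
    simp
    ring
  -- the sum
  have hsum : ∀ z : E3 × E3, KK' R x₀ f g t z
      + fderiv ℝ (fun z : E3 × E3 => ph R x₀ t z.1 * w z ^ 2) z
          (u z.2, E t z.1 + cross (u z.2) (B t z.1))
      = -4 * (R - t) * mh R x₀ t z.1 * w z ^ 2 + fderiv ℝ (ph R x₀ t) z.1 (u z.2) * w z ^ 2
        - 2 * (ph R x₀ t z.1 * w z * fderiv ℝ (fun y : E3 × E3 => g t y.1 y.2) z
          (0, (E t z.1 - E' t z.1) + cross (u z.2) (B t z.1 - B' t z.1))) := by
    intro z
    have a1 : ((0 : E3), (E t z.1 - E' t z.1) + cross (u z.2) (B t z.1 - B' t z.1))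
        = (u z.2, E t z.1 + cross (u z.2) (B t z.1))
          - (u z.2, E' t z.1 + cross (u z.2) (B' t z.1)) := by
      rw [← cross_sub]
      ext1
      · simp
      · simp only [Prod.snd_sub]
        abel
    rw [hGd, a1, map_sub]
    unfold KK'
    rw [h.vlasov_fderiv htT, h'.vlasov_fderiv htT]
    simp only [hw]
    ring
  -- the pointwise bound
  have hpt : ∀ z : E3 × E3, KK' R x₀ f g t z
      + fderiv ℝ (fun z : E3 × E3 => ph R x₀ t z.1 * w z ^ 2) z
          (u z.2, E t z.1 + cross (u z.2) (B t z.1))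
      ≤ L * (ph R x₀ t z.1 * w z ^ 2)
        + 2 * L * (fd R x₀ E B E' B' t z.1 * ind P z.2) := by
    intro z
    rw [hsum]
    by_cases hz : z ∈ KR x₀ R P
    · have hv : ‖z.2‖ ≤ P := by simpa using hz.2
      rw [ind_eq_one hv, mul_one]
      exact kin_pointwise htR hL (hD z hz _)
    · have a1 := kin_pointwise (x₀ := x₀) htR le_rfl (x := z.1) (v := z.2)
        (e := 0) (b := 0) (w := w z) (D := 0) (by simp)
      have a2 : ph R x₀ t z.1 * w z = 0 := by
        rcases zero_off hf hg hbR htb hz with h0 | ⟨h0, h1⟩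
        · rw [h0, zero_mul]
        · rw [hw]
          simp only
          rw [h0, h1, sub_zero, mul_zero]
      rw [a2]
      have a3 : 0 ≤ L * (ph R x₀ t z.1 * w z ^ 2) :=
        mul_nonneg hL (mul_nonneg (ph_nonneg _ _) (sq_nonneg _))
      have a4 : 0 ≤ 2 * L * (fd R x₀ E B E' B' t z.1 * ind P z.2) :=
        mul_nonneg (by positivity) (mul_nonneg (fd_nonneg _ _) (ind_nonneg _ _))
      linarith
  -- integrability
  have i1 : Integrable fun z : E3 × E3 =>
      fderiv ℝ (fun z : E3 × E3 => ph R x₀ t z.1 * w z ^ 2) z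
          (u z.2, E t z.1 + cross (u z.2) (B t z.1)) := by
    have cu : Continuous fun z : E3 × E3 => u z.2 := continuous_u.comp continuous_snd
    have cF : Continuous fun z : E3 × E3 => E t z.1 :=
      (h.E_slice htT').continuous.comp continuous_fst
    have cH : Continuous fun z : E3 × E3 => cross (u z.2) (B t z.1) :=
      (contDiff_cross (u_contDiff.comp contDiff_snd)
        ((h.B_slice htT').comp contDiff_fst)).continuous
    refine Continuous.integrable_of_hasCompactSupport ?_ ?_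
    · exact (hG1.continuous_fderiv (by norm_num)).clm_apply (cu.prodMk (cF.add cH))
    · refine HasCompactSupport.intro (hGc.fderiv (𝕜 := ℝ)) fun x hx => ?_
      rw [image_eq_zero_of_notMem_tsupport hx]
      simp
  have i2 : Integrable fun z : E3 × E3 => KK' R x₀ f g t z := by
    refine Continuous.integrable_of_hasCompactSupport ?_ ?_
    · have a1 : ∀ (φ : ℝ → E3 → E3 → ℝ), ContDiffOn ℝ 1
          (fun z : ℝ × E3 × E3 => φ z.1 z.2.1 z.2.2) (Ico 0 T ×ˢ univ) →
          Continuous fun z : E3 × E3 =>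
            fderiv ℝ (fun y : ℝ × E3 × E3 => φ y.1 y.2.1 y.2.2) (t, z) (1, 0) := by
        intro φ hφ
        have a2 : ContinuousOn (fun z : E3 × E3 =>
            fderiv ℝ (fun y : ℝ × E3 × E3 => φ y.1 y.2.1 y.2.2) (t, z) (1, 0)) univ :=
          (continuousOn_fderiv_of_slab hφ).comp (f := fun z : E3 × E3 => (t, z)) (by fun_prop)
            (fun z _ => ⟨htT, mem_univ _⟩)
        exact continuousOn_univ.1 a2
      have a3 : Continuous fun z : E3 × E3 => mh R x₀ t z.1 :=
        continuous_mh2.comp (f := fun z : E3 × E3 => (t, z.1)) (by fun_prop)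
      unfold KK'
      exact ((continuous_const.mul a3).mul (hw1.continuous.pow 2)).add
        (hph1.continuous.mul ((continuous_const.mul hw1.continuous).mul
          ((a1 f h.f_contDiff).sub (a1 g h'.f_contDiff))))
    · refine HasCompactSupport.intro (isCompact_KR' (x₀ := x₀) (R := R) (P := P)) fun z hz => ?_
      unfold KK'
      rcases zero_off hf hg hbR htb hz with h0 | ⟨h0, h1⟩
      · rw [mh_eq_zero_of_ph h0, h0]
        ring
      · rw [h0, h1]
        ring
  have i3 := integrable_kin h h' hb hbR hf hg htb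
  have i4 := integrable_mul_ind (integrable_fd h h' hb hbR htb (R := R) (x₀ := x₀)) P
  have key : ∫ z, KK' R x₀ f g t z
      = ∫ z : E3 × E3, (KK' R x₀ f g t z
        + fderiv ℝ (fun z : E3 × E3 => ph R x₀ t z.1 * w z ^ 2) z
          (u z.2, E t z.1 + cross (u z.2) (B t z.1))) := by
    rw [integral_add i2 i1, htr, add_zero]
  rw [key]
  refine (integral_mono (i2.add i1) ((i3.const_mul L).add (i4.const_mul (2 * L))) hpt).trans ?_
  simp only [Pi.add_apply]
  rw [integral_add (i3.const_mul L) (i4.const_mul (2 * L)), integral_const_mul,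
    integral_const_mul, integral_mul_ind]
  exact le_rfl

end Vale.Agent.P107.Cn
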