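import Vale.Agent.P107.H15.Cone5

/-!
The growth of the field part.
-/

attribute [-instance] ProperSMul.toContinuousSMul IsTopologicalTorsor.toContinuousSMul
  IdemSemiring.toCanonicallyOrderedAdd IdemSemiring.toMulLeftMono IdemSemiring.toMulRightMono
  AddQuantale.instAddLeftMono AddQuantale.instAddRightMono Quantale.instMulLeftMono
  Quantale.instMulRightMono FiniteDimensional.rclike_to_real IsScalarTower.complexToReal
  FiniteDimensional.complexToReal

open MeasureTheory Set Filter Topology
open scoped RealInnerProductSpace ENNReal NNReal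

namespace Vale.Agent.P107.Cn

variable {T : ℝ} {f g : ℝ → E3 → E3 → ℝ} {E B E' B' : ℝ → E3 → E3} {R P b t : ℝ} {x₀ : E3}

/-- the integrand of the time derivative of the field part -/
noncomputable def MM' (R : ℝ) (x₀ : E3) (E B E' B' : ℝ → E3 → E3) (s : ℝ) (x : E3) : ℝ :=
  -4 * (R - s) * mh R x₀ s x * (‖E s x - E' s x‖ ^ 2 + ‖B s x - B' s x‖ ^ 2)
    + ph R x₀ s x * (2 * ⟪E s x - E' s x, fderiv ℝ (fun y : ℝ × E3 => E y.1 y.2) (s, x) (1, 0)
        - fderiv ℝ (fun y : ℝ × E3 => E' y.1 y.2) (s, x) (1, 0)⟫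
      + 2 * ⟪B s x - B' s x, fderiv ℝ (fun y : ℝ × E3 => B y.1 y.2) (s, x) (1, 0)
        - fderiv ℝ (fun y : ℝ × E3 => B' y.1 y.2) (s, x) (1, 0)⟫)

lemma hasDerivAt_MM (h : LSol T f E B) (h' : LSol T g E' B') (hb : b ∈ Ico 0 T) (hbR : b ≤ R)
    (ht : t ∈ Ioo 0 b) :
    HasDerivAt (MM R x₀ E B E' B') (∫ x, MM' R x₀ E B E' B' t x) t := by
  have hsub : Ioo 0 b ⊆ Ioo 0 T := Ioo_subset_Ioo_right hb.2.le
  refine hasDerivAt_integral_of_compact (μ := (volume : Measure E3)) (a := 0) (b := b)
    (F := fd R x₀ E B E' B')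
    (F' := MM' R x₀ E B E' B') (isCompact_closedBall x₀ R) ?_ ?_ ?_ ?_ ht
  · intro s hs x hx
    unfold fd
    rw [ph_eq_zero' hbR (Ioo_subset_Icc_self hs) hx, zero_mul]
  · intro s hs x
    have h1 := hasDerivAt_of_slab h.E_contDiff (hsub hs) x
    have h2 := hasDerivAt_of_slab h'.E_contDiff (hsub hs) x
    have h3 := hasDerivAt_of_slab h.B_contDiff (hsub hs) x
    have h4 := hasDerivAt_of_slab h'.B_contDiff (hsub hs) x
    have h5 := (hasDerivAt_ph (R := R) (x₀ := x₀) s x).mul
      ((h1.sub h2).norm_sq.add (h3.sub h4).norm_sq)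
    refine h5.congr_deriv ?_
    unfold MM'
    simp
  · intro s hs
    exact continuous_fd h.toKSol h'.toKSol (Ioo_subset_Ico_self (hsub hs))
  · have h1 : ContinuousOn (fun y : ℝ × E3 => E y.1 y.2) (Ioo 0 b ×ˢ univ) :=
      h.E_contDiff.continuousOn.mono
        (prod_mono (hsub.trans Ioo_subset_Ico_self) (subset_refl _))
    have h2 : ContinuousOn (fun y : ℝ × E3 => E' y.1 y.2) (Ioo 0 b ×ˢ univ) :=
      h'.E_contDiff.continuousOn.mono
        (prod_mono (hsub.trans Ioo_subset_Ico_self) (subset_refl _))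
    have h3 : ContinuousOn (fun y : ℝ × E3 => B y.1 y.2) (Ioo 0 b ×ˢ univ) :=
      h.B_contDiff.continuousOn.mono
        (prod_mono (hsub.trans Ioo_subset_Ico_self) (subset_refl _))
    have h4 : ContinuousOn (fun y : ℝ × E3 => B' y.1 y.2) (Ioo 0 b ×ˢ univ) :=
      h'.B_contDiff.continuousOn.mono
        (prod_mono (hsub.trans Ioo_subset_Ico_self) (subset_refl _))
    have d1 := (continuousOn_fderiv_of_slab h.E_contDiff).mono
      (prod_mono hsub (subset_refl univ))
    have d2 := (continuousOn_fderiv_of_slab h'.E_contDiff).mono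
      (prod_mono hsub (subset_refl univ))
    have d3 := (continuousOn_fderiv_of_slab h.B_contDiff).mono
      (prod_mono hsub (subset_refl univ))
    have d4 := (continuousOn_fderiv_of_slab h'.B_contDiff).mono
      (prod_mono hsub (subset_refl univ))
    have h5 : Continuous fun y : ℝ × E3 => mh R x₀ y.1 y.2 := continuous_mh2
    have h6 : Continuous fun y : ℝ × E3 => ph R x₀ y.1 y.2 := continuous_ph2
    unfold MM'
    refine ContinuousOn.add ?_ ?_
    · refine ContinuousOn.mul (Continuous.continuousOn ?_)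
        (((h1.sub h2).norm.pow 2).add ((h3.sub h4).norm.pow 2))
      exact (by fun_prop : Continuous fun y : ℝ × E3 => -4 * (R - y.1)).mul h5
    · exact h6.continuousOn.mul ((((h1.sub h2).inner (d1.sub d2)).const_mul 2).add
        (((h3.sub h4).inner (d3.sub d4)).const_mul 2))

lemma continuousOn_MM (h : LSol T f E B) (h' : LSol T g E' B') (hb : b ∈ Ico 0 T)
    (hbR : b ≤ R) : ContinuousOn (MM R x₀ E B E' B') (Icc 0 b) := by
  have hsub : Icc 0 b ⊆ Ico 0 T := Icc_subset_Ico_right hb.2
  refine continuousOn_integral_of_compact_support (isCompact_closedBall x₀ R) ?_ ?_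
  · have h1 := h.E_contDiff.continuousOn.mono (prod_mono hsub (subset_refl univ))
    have h2 := h'.E_contDiff.continuousOn.mono (prod_mono hsub (subset_refl univ))
    have h3 := h.B_contDiff.continuousOn.mono (prod_mono hsub (subset_refl univ))
    have h4 := h'.B_contDiff.continuousOn.mono (prod_mono hsub (subset_refl univ))
    exact continuous_ph2.continuousOn.mul
      (((h1.sub h2).norm.pow 2).add ((h3.sub h4).norm.pow 2))
  · intro s x hs hx
    unfold fd
    rw [ph_eq_zero' hbR hs hx, zero_mul]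

lemma continuous_cur' (h : LSol T f E B) (ht : t ∈ Ioo 0 T) : Continuous (cur f t) := by
  have h1 : cur f t = fun x => curl (B t) x
      - fderiv ℝ (fun y : ℝ × E3 => E y.1 y.2) (t, x) (1, 0) := by
    ext1 x
    rw [h.ampere_fderiv ht x]
    abel
  rw [h1]
  refine (continuous_curl (h.B_slice (Ioo_subset_Ico_self ht))).sub ?_
  have h2 : ContinuousOn (fun x : E3 => fderiv ℝ (fun y : ℝ × E3 => E y.1 y.2) (t, x) (1, 0))
      univ :=
    (continuousOn_fderiv_of_slab h.E_contDiff).comp (f := fun x : E3 => (t, x)) (by fun_prop)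
      (fun x _ => ⟨ht, mem_univ _⟩)
  exact continuousOn_univ.1 h2

lemma curl_sub {F H : E3 → E3} (hF : ContDiff ℝ 1 F) (hH : ContDiff ℝ 1 H) (x : E3) :
    curl (fun y => F y - H y) x = curl F x - curl H x := by
  have hFi : ∀ i, DifferentiableAt ℝ (fun y => F y i) x := fun i =>
    ((contDiff_euclidean.1 hF i).differentiable (by norm_num)).differentiableAt
  have hHi : ∀ i, DifferentiableAt ℝ (fun y => H y i) x := fun i =>
    ((contDiff_euclidean.1 hH i).differentiable (by norm_num)).differentiableAt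
  have e : ∀ i j, pd i (fun y => F y j - H y j) x = pd i (fun y => F y j) x
      - pd i (fun y => H y j) x := by
    intro i j
    unfold pd
    rw [fderiv_fun_sub (hFi j) (hHi j)]
    rfl
  ext i
  fin_cases i <;> simp [curl, e] <;> ring

/-- The work of the difference of the currents. -/
lemma cur_work (h : LSol T f E B) (h' : LSol T g E' B') (hb : b ∈ Ico 0 T) (hbR : b ≤ R)
    (hf : MB x₀ R P b f) (hg : MB x₀ R P b g) {s : ℝ} (hs : s ∈ Icc 0 b) :
    ∫ x, ph R x₀ s x * ⟪E s x - E' s x, cur f s x - cur g s x⟫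
      = ∫ z : E3 × E3, (ph R x₀ s z.1 * (f s z.1 z.2 - g s z.1 z.2))
          * ⟪u z.2, E s z.1 - E' s z.1⟫ := by
  have hsT : s ∈ Ico 0 T := Icc_subset_Ico_right hb.2 hs
  have hf1 := (h.f_slice hsT).continuous
  have hg1 := (h'.f_slice hsT).continuous
  have hc : HasCompactSupport fun z : E3 × E3 =>
      ph R x₀ s z.1 * (f s z.1 z.2 - g s z.1 z.2) := by
    refine HasCompactSupport.intro (isCompact_KR' (x₀ := x₀) (R := R) (P := P)) fun z hz => ?_
    rcases zero_off hf hg hbR hs hz with h0 | ⟨h0, h1⟩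
    · rw [h0, zero_mul]
    · rw [h0, h1, sub_zero, mul_zero]
  have hw := integral_work (W := fun z : E3 × E3 =>
      ph R x₀ s z.1 * (f s z.1 z.2 - g s z.1 z.2)) (H := fun x => E s x - E' s x)
    (((contDiff_ph_slice s).continuous.comp continuous_fst).mul
    (hf1.sub hg1)) hc ((h.E_slice hsT).continuous.sub (h'.E_slice hsT).continuous)
  refine Eq.trans ?_ hw.symm
  refine integral_congr_ae (ae_of_all _ fun x => ?_)
  show ph R x₀ s x * ⟪E s x - E' s x, cur f s x - cur g s x⟫
    = ⟪E s x - E' s x, ∫ v, (ph R x₀ s x * (f s x v - g s x v)) • u v⟫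
  by_cases hx : x ∈ Metric.closedBall x₀ R
  · have hx' : ‖x - x₀‖ ≤ R := by rwa [mem_closedBall_iff_norm] at hx
    have hi : ∀ (φ : ℝ → E3 → E3 → ℝ), Continuous (fun z : E3 × E3 => φ s z.1 z.2) →
        MB x₀ R P b φ → Integrable fun v => φ s x v • u v := by
      intro φ hφ hm
      have hfv : Continuous fun v => φ s x v :=
        hφ.comp (f := fun v : E3 => (x, v)) (by fun_prop)
      have hsupp : HasCompactSupport fun v => φ s x v := by
        refine HasCompactSupport.intro (isCompact_closedBall (0 : E3) P) fun v hv => ?_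
        by_contra hne
        exact hv (by simpa using hm s hs x v hx' hne)
      exact (hfv.smul continuous_u).integrable_of_hasCompactSupport
        (HasCompactSupport.smul_right hsupp)
    unfold cur
    rw [← integral_sub (hi f hf1 hf) (hi g hg1 hg), ← real_inner_smul_right, ← integral_smul]
    congr 2
    ext1 v
    rw [mul_smul, sub_smul]
  · rw [ph_eq_zero' hbR hs hx]
    simp

/-- The growth of the field part. -/
lemma MM_growth (h : LSol T f E B) (h' : LSol T g E' B') (hb : b ∈ Ico 0 T) (hbR : b ≤ R)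
    (hf : MB x₀ R P b f) (hg : MB x₀ R P b g) (ht : t ∈ Ioo 0 b) :
    ∫ x, MM' R x₀ E B E' B' t x ≤ KK R x₀ f g t + MM R x₀ E B E' B' t * vo P := by
  have := isAddHaar_prod
  have htb : t ∈ Icc 0 b := Ioo_subset_Icc_self ht
  have htT : t ∈ Ioo 0 T := ⟨ht.1, ht.2.trans hb.2⟩
  have htT' : t ∈ Ico 0 T := Ioo_subset_Ico_self htT
  have htR : t ≤ R := ht.2.le.trans hbR
  have hE := h.E_slice htT'
  have hE' := h'.E_slice htT'
  have hB := h.B_slice htT'
  have hB' := h'.B_slice htT'
  have he : ContDiff ℝ 1 fun x => E t x - E' t x := hE.sub hE'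
  have hbb : ContDiff ℝ 1 fun x => B t x - B' t x := hB.sub hB'
  have hph := contDiff_ph_slice (R := R) (x₀ := x₀) t
  have hphc := hasCompactSupport_ph (x₀ := x₀) hbR htb
  have hmx := maxwell_ibp hph hphc he hbb
  have hcf := (continuous_cur' h htT).sub (continuous_cur' h' htT)
  have cmh : Continuous (mh R x₀ t) :=
    continuous_mh2.comp (f := fun x : E3 => (t, x)) (by fun_prop)
  have cmhc : HasCompactSupport (mh R x₀ t) :=
    HasCompactSupport.intro (isCompact_closedBall x₀ R) fun _ hx =>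
      mh_eq_zero_of_ph (ph_eq_zero' hbR htb hx)
  have cen : Continuous fun x => ‖E t x - E' t x‖ ^ 2 + ‖B t x - B' t x‖ ^ 2 :=
    (he.continuous.norm.pow 2).add (hbb.continuous.norm.pow 2)
  have e1 : ∀ x, MM' R x₀ E B E' B' t x
      = -4 * (R - t) * mh R x₀ t x * (‖E t x - E' t x‖ ^ 2 + ‖B t x - B' t x‖ ^ 2)
        + 2 * (ph R x₀ t x * (⟪E t x - E' t x, curl (fun y => B t y - B' t y) x⟫
          - ⟪B t x - B' t x, curl (fun y => E t y - E' t y) x⟫))
        - 2 * (ph R x₀ t x * ⟪E t x - E' t x, cur f t x - cur g t x⟫) := by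
    intro x
    unfold MM'
    rw [h.ampere_fderiv htT, h'.ampere_fderiv htT, h.faraday_fderiv htT, h'.faraday_fderiv htT,
      curl_sub hB hB', curl_sub hE hE']
    have a1 : curl (B t) x - cur f t x - (curl (B' t) x - cur g t x)
        = (curl (B t) x - curl (B' t) x) - (cur f t x - cur g t x) := by abel
    have a2 : -curl (E t) x - -curl (E' t) x = -(curl (E t) x - curl (E' t) x) := by abel
    rw [a1, a2, inner_sub_right, inner_neg_right]
    ring
  have j1 : Integrable fun x =>
      -4 * (R - t) * mh R x₀ t x * (‖E t x - E' t x‖ ^ 2 + ‖B t x - B' t x‖ ^ 2) :=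
    ((continuous_const.mul cmh).mul cen).integrable_of_hasCompactSupport
      (HasCompactSupport.mul_right (HasCompactSupport.mul_left cmhc))
  have j2 : Integrable fun x => ph R x₀ t x *
      (⟪E t x - E' t x, curl (fun y => B t y - B' t y) x⟫
          - ⟪B t x - B' t x, curl (fun y => E t y - E' t y) x⟫) :=
    (hph.continuous.mul ((he.continuous.inner (continuous_curl hbb)).sub
      (hbb.continuous.inner (continuous_curl he)))).integrable_of_hasCompactSupport
      (HasCompactSupport.mul_right hphc)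
  have j3 : Integrable fun x => ph R x₀ t x * ⟪E t x - E' t x, cur f t x - cur g t x⟫ :=
    (hph.continuous.mul (he.continuous.inner hcf)).integrable_of_hasCompactSupport
      (HasCompactSupport.mul_right hphc)
  have j4 : Integrable fun x => fderiv ℝ (ph R x₀ t) x
      (cross (E t x - E' t x) (B t x - B' t x)) := by
    refine Continuous.integrable_of_hasCompactSupport ?_ ?_
    · exact (hph.continuous_fderiv (by norm_num)).clm_apply (contDiff_cross he hbb).continuous
    · refine HasCompactSupport.intro (hphc.fderiv (𝕜 := ℝ)) fun x hx => ?_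
      rw [image_eq_zero_of_notMem_tsupport hx]
      simp
  -- the work
  set W : E3 × E3 → ℝ := fun z => (ph R x₀ t z.1 * (f t z.1 z.2 - g t z.1 z.2))
    * ⟪u z.2, E t z.1 - E' t z.1⟫ with hW
  have k1 := integrable_kin h.toKSol h'.toKSol hb hbR hf hg htb
  have k2 := integrable_mul_ind (integrable_fd h.toKSol h'.toKSol hb hbR htb (R := R) (x₀ := x₀)) P
  have hWpt : ∀ z : E3 × E3, -2 * W z ≤ ph R x₀ t z.1 * (f t z.1 z.2 - g t z.1 z.2) ^ 2
      + fd R x₀ E B E' B' t z.1 * ind P z.2 := by
    intro z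
    have b1 : 0 ≤ ph R x₀ t z.1 := ph_nonneg _ _
    by_cases hz : z ∈ KR x₀ R P
    · have hv : ‖z.2‖ ≤ P := by simpa using hz.2
      rw [ind_eq_one hv, mul_one, hW]
      unfold fd
      simp only
      have b2 : |⟪u z.2, E t z.1 - E' t z.1⟫| ≤ ‖E t z.1 - E' t z.1‖ := by
        refine (abs_real_inner_le_norm _ _).trans ?_
        exact mul_le_of_le_one_left (norm_nonneg _) (norm_u_lt_one _).le
      have b3 : ⟪u z.2, E t z.1 - E' t z.1⟫ ^ 2 ≤ ‖E t z.1 - E' t z.1‖ ^ 2 := by
        rw [← sq_abs ⟪u z.2, E t z.1 - E' t z.1⟫]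
        exact pow_le_pow_left₀ (abs_nonneg _) b2 2
      have b4 : -2 * ((f t z.1 z.2 - g t z.1 z.2) * ⟪u z.2, E t z.1 - E' t z.1⟫)
          ≤ (f t z.1 z.2 - g t z.1 z.2) ^ 2
            + (‖E t z.1 - E' t z.1‖ ^ 2 + ‖B t z.1 - B' t z.1‖ ^ 2) := by
        nlinarith only [b3, sq_nonneg ((f t z.1 z.2 - g t z.1 z.2)
          + ⟪u z.2, E t z.1 - E' t z.1⟫), sq_nonneg ‖B t z.1 - B' t z.1‖]
      have b5 := mul_le_mul_of_nonneg_left b4 b1
      linarith only [b5]
    · have b2 : ph R x₀ t z.1 * (f t z.1 z.2 - g t z.1 z.2) = 0 := by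
        rcases zero_off hf hg hbR htb hz with h0 | ⟨h0, h1⟩
        · rw [h0, zero_mul]
        · rw [h0, h1, sub_zero, mul_zero]
      rw [hW]
      simp only
      rw [b2, zero_mul, mul_zero]
      exact add_nonneg (mul_nonneg b1 (sq_nonneg _)) (mul_nonneg (fd_nonneg _ _) (ind_nonneg _ _))
  have hWi : Integrable W := by
    have b1 : Continuous fun z : E3 × E3 => ph R x₀ t z.1 * (f t z.1 z.2 - g t z.1 z.2) :=
      (hph.continuous.comp continuous_fst).mul
        ((h.f_slice htT').continuous.sub (h'.f_slice htT').continuous)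
    refine Continuous.integrable_of_hasCompactSupport
      (b1.mul ((continuous_u.comp continuous_snd).inner (he.continuous.comp continuous_fst))) ?_
    refine HasCompactSupport.mul_right ?_
    refine HasCompactSupport.intro (isCompact_KR' (x₀ := x₀) (R := R) (P := P)) fun z hz => ?_
    rcases zero_off hf hg hbR htb hz with h0 | ⟨h0, h1⟩
    · rw [h0, zero_mul]
    · rw [h0, h1, sub_zero, mul_zero]
  have hWle : -2 * ∫ z, W z ≤ KK R x₀ f g t + MM R x₀ E B E' B' t * vo P := by
    rw [← integral_const_mul]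
    refine (integral_mono (hWi.const_mul (-2)) (k1.add k2) hWpt).trans ?_
    simp only [Pi.add_apply]
    rw [integral_add k1 k2, integral_mul_ind]
    exact le_rfl
  have hpt : ∫ x, (-4 * (R - t) * mh R x₀ t x * (‖E t x - E' t x‖ ^ 2 + ‖B t x - B' t x‖ ^ 2)
      + 2 * fderiv ℝ (ph R x₀ t) x (cross (E t x - E' t x) (B t x - B' t x))) ≤ 0 :=
    integral_nonpos fun x => field_pointwise htR
  rw [integral_add j1 (j4.const_mul 2), integral_const_mul] at hpt
  simp_rw [e1]
  have j12 : Integrable fun x =>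
      -4 * (R - t) * mh R x₀ t x * (‖E t x - E' t x‖ ^ 2 + ‖B t x - B' t x‖ ^ 2)
        + 2 * (ph R x₀ t x * (⟪E t x - E' t x, curl (fun y => B t y - B' t y) x⟫
          - ⟪B t x - B' t x, curl (fun y => E t y - E' t y) x⟫)) := j1.add (j2.const_mul 2)
  rw [integral_sub j12 (j3.const_mul 2), integral_add j1 (j2.const_mul 2),
    integral_const_mul, integral_const_mul, hmx, cur_work h h' hb hbR hf hg htb]
  linarith only [hpt, hWle]

end Vale.Agent.P107.Cn
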