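import Vale.Agent.P107.H15.Cone6

/-!
Finite speed of propagation for the relativistic Vlasov-Maxwell system.
-/

attribute [-instance] ProperSMul.toContinuousSMul IsTopologicalTorsor.toContinuousSMul
  IdemSemiring.toCanonicallyOrderedAdd IdemSemiring.toMulLeftMono IdemSemiring.toMulRightMono
  AddQuantale.instAddLeftMono AddQuantale.instAddRightMono Quantale.instMulLeftMono
  Quantale.instMulRightMono FiniteDimensional.rclike_to_real IsScalarTower.complexToReal
  FiniteDimensional.complexToReal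

open MeasureTheory Set Filter Topology
open scoped RealInnerProductSpace ENNReal NNReal

namespace Vale.Agent.P107.Cn

variable {T : ℝ} {f g : ℝ → E3 → E3 → ℝ} {E B E' B' : ℝ → E3 → E3} {R P b t : ℝ} {x₀ : E3}

lemma ph_pos {s : ℝ} {x : E3} (hx : ‖x - x₀‖ < R - s) : 0 < ph R x₀ s x := by
  refine th_pos ?_
  nlinarith [norm_nonneg (x - x₀)]

lemma le_of_ph_ne {x : E3} (hR : 0 ≤ R) (hx : ph R x₀ 0 x ≠ 0) : ‖x - x₀‖ ≤ R := by
  by_contra hne
  push Not at hne
  exact hx (ph_eq_zero le_rfl hR hne.le)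

/-- The energy of the difference vanishes. -/
lemma energy_zero (h : LSol T f E B) (h' : LSol T g E' B') (hb : b ∈ Ico 0 T) (hbR : b ≤ R)
    (h0 : ∀ x, ‖x - x₀‖ ≤ R → (∀ v, f 0 x v = g 0 x v) ∧ E 0 x = E' 0 x ∧ B 0 x = B' 0 x) :
    KK R x₀ f g b + MM R x₀ E B E' B' b = 0 := by
  have hR : 0 ≤ R := hb.1.trans hbR
  obtain ⟨P₁, hP₁⟩ := h.exists_MB hb x₀ R
  obtain ⟨P₂, hP₂⟩ := h'.exists_MB hb x₀ R
  have hf := hP₁.mono (le_max_left P₁ P₂)
  have hg := hP₂.mono (le_max_right P₁ P₂)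
  set P := max P₁ P₂
  obtain ⟨L, hL, hD⟩ := h'.exists_deriv_bound hb (isCompact_KR' (x₀ := x₀) (R := R) (P := P))
  set C : ℝ := L + 2 * L * vo P + 1 + vo P with hC
  have hK0 : KK R x₀ f g 0 = 0 := by
    have : ∀ z : E3 × E3, ph R x₀ 0 z.1 * (f 0 z.1 z.2 - g 0 z.1 z.2) ^ 2 = 0 := by
      intro z
      by_cases hz : ph R x₀ 0 z.1 = 0
      · rw [hz, zero_mul]
      · rw [(h0 z.1 (le_of_ph_ne hR hz)).1 z.2, sub_self]
        ring
    unfold KK
    simp [this]
  have hM0 : MM R x₀ E B E' B' 0 = 0 := by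
    have : ∀ x : E3, fd R x₀ E B E' B' 0 x = 0 := by
      intro x
      unfold fd
      by_cases hz : ph R x₀ 0 x = 0
      · rw [hz, zero_mul]
      · rw [(h0 x (le_of_ph_ne hR hz)).2.1, (h0 x (le_of_ph_ne hR hz)).2.2, sub_self, sub_self]
        simp
    unfold MM
    simp [this]
  have hderiv : ∀ s ∈ Ioo 0 b, HasDerivAt
      (fun s => Real.exp (-C * s) * (KK R x₀ f g s + MM R x₀ E B E' B' s))
      (Real.exp (-C * s) * (-C) * (KK R x₀ f g s + MM R x₀ E B E' B' s)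
        + Real.exp (-C * s) * ((∫ z, KK' R x₀ f g s z) + ∫ x, MM' R x₀ E B E' B' s x)) s := by
    intro s hs
    have e1 : HasDerivAt (fun s : ℝ => Real.exp (-C * s)) (Real.exp (-C * s) * (-C)) s := by
      have := ((hasDerivAt_id s).const_mul (-C)).exp
      simpa using this
    exact e1.mul ((hasDerivAt_KK h.toKSol h'.toKSol hb hbR hf hg hs).add (hasDerivAt_MM h h' hb hbR hs))
  have hanti : AntitoneOn (fun s => Real.exp (-C * s) * (KK R x₀ f g s + MM R x₀ E B E' B' s))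
      (Icc 0 b) := by
    refine antitoneOn_of_deriv_nonpos (convex_Icc _ _) ?_ (fun s hs => ?_) (fun s hs => ?_)
    · refine ContinuousOn.mul (by fun_prop) ?_
      exact (continuousOn_KK h.toKSol h'.toKSol hb hbR hf hg).add (continuousOn_MM h h' hb hbR)
    · rw [interior_Icc] at hs
      exact (hderiv s hs).differentiableAt.differentiableWithinAt
    · rw [interior_Icc] at hs
      rw [(hderiv s hs).deriv]
      have g1 := KK_growth (E := E) (B := B) h.toKSol h'.toKSol hb hbR hf hg hs hL (fun z hz a => hD s hs z hz a)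
      have g2 := MM_growth h h' hb hbR hf hg hs
      have k0 := KK_nonneg (R := R) (x₀ := x₀) (f := f) (g := g) s
      have m0 := MM_nonneg (R := R) (x₀ := x₀) (E := E) (B := B) (E' := E') (B' := B') s
      have v0 := vo_nonneg P
      have key : -C * (KK R x₀ f g s + MM R x₀ E B E' B' s)
          + ((∫ z, KK' R x₀ f g s z) + ∫ x, MM' R x₀ E B E' B' s x) ≤ 0 := by
        have p1 : 0 ≤ L * MM R x₀ E B E' B' s := mul_nonneg hL m0
        have p2 : 0 ≤ L * vo P * KK R x₀ f g s := mul_nonneg (mul_nonneg hL v0) k0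
        have p3 : 0 ≤ vo P * KK R x₀ f g s := mul_nonneg v0 k0
        rw [hC]
        nlinarith only [g1, g2, p1, p2, p3, m0, k0]
      have hexp := (Real.exp_pos (-C * s)).le
      nlinarith only [mul_nonneg hexp (neg_nonneg.2 key)]
  have h1 := hanti ⟨le_rfl, hb.1⟩ ⟨hb.1, le_rfl⟩ hb.1
  simp only [hK0, hM0, add_zero, mul_zero] at h1
  have h2 : KK R x₀ f g b + MM R x₀ E B E' B' b ≤ 0 := by
    by_contra hne
    push Not at hne
    exact absurd h1 (not_le.2 (mul_pos (Real.exp_pos _) hne))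
  have k0 := KK_nonneg (R := R) (x₀ := x₀) (f := f) (g := g) b
  have m0 := MM_nonneg (R := R) (x₀ := x₀) (E := E) (B := B) (E' := E') (B' := B') b
  linarith

/-- Agreement in the open cone. -/
lemma agree_open (h : LSol T f E B) (h' : LSol T g E' B') (hb : b ∈ Ico 0 T)
    (h0 : ∀ x, ‖x - x₀‖ ≤ R → (∀ v, f 0 x v = g 0 x v) ∧ E 0 x = E' 0 x ∧ B 0 x = B' 0 x)
    {x : E3} (hx : ‖x - x₀‖ < R - b) :
    (∀ v, f b x v = g b x v) ∧ E b x = E' b x ∧ B b x = B' b x := by
  have := isAddHaar_prod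
  have hbR : b ≤ R := by linarith [norm_nonneg (x - x₀)]
  have hz := energy_zero h h' hb hbR h0
  have k0 := KK_nonneg (R := R) (x₀ := x₀) (f := f) (g := g) b
  have m0 := MM_nonneg (R := R) (x₀ := x₀) (E := E) (B := B) (E' := E') (B' := B') b
  have hK : KK R x₀ f g b = 0 := by linarith
  have hM : MM R x₀ E B E' B' b = 0 := by linarith
  have hp := ph_pos hx
  have hbb : b ∈ Icc 0 b := ⟨hb.1, le_rfl⟩
  obtain ⟨P₁, hP₁⟩ := h.exists_MB hb x₀ R
  obtain ⟨P₂, hP₂⟩ := h'.exists_MB hb x₀ R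
  have hf := hP₁.mono (le_max_left P₁ P₂)
  have hg := hP₂.mono (le_max_right P₁ P₂)
  have c1 : Continuous fun z : E3 × E3 => ph R x₀ b z.1 * (f b z.1 z.2 - g b z.1 z.2) ^ 2 :=
    ((contDiff_ph_slice b).continuous.comp continuous_fst).mul
      (((h.f_slice hb).continuous.sub (h'.f_slice hb).continuous).pow 2)
  have a1 : (fun z : E3 × E3 => ph R x₀ b z.1 * (f b z.1 z.2 - g b z.1 z.2) ^ 2) = 0 := by
    have a2 := (integral_eq_zero_iff_of_nonneg (fun z => mul_nonneg (ph_nonneg _ _) (sq_nonneg _))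
      (integrable_kin h.toKSol h'.toKSol hb hbR hf hg hbb)).1 hK
    exact (c1.ae_eq_iff_eq volume continuous_zero).1 a2
  have b1 : fd R x₀ E B E' B' b = 0 := by
    have b2 := (integral_eq_zero_iff_of_nonneg (fun x => fd_nonneg _ _)
      (integrable_fd h.toKSol h'.toKSol hb hbR hbb)).1 hM
    exact ((continuous_fd h.toKSol h'.toKSol hb).ae_eq_iff_eq volume continuous_zero).1 b2
  refine ⟨fun v => ?_, ?_, ?_⟩
  · have a3 := congrFun a1 (x, v)
    simp only [Pi.zero_apply] at a3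
    rcases mul_eq_zero.1 a3 with a4 | a4
    · exact absurd a4 hp.ne'
    · exact sub_eq_zero.1 (pow_eq_zero_iff two_ne_zero |>.1 a4)
  · have b3 := congrFun b1 x
    unfold fd at b3
    simp only [Pi.zero_apply] at b3
    rcases mul_eq_zero.1 b3 with b4 | b4
    · exact absurd b4 hp.ne'
    · have b5 : ‖E b x - E' b x‖ ^ 2 = 0 := by
        nlinarith [sq_nonneg (‖B b x - B' b x‖), sq_nonneg (‖E b x - E' b x‖)]
      exact sub_eq_zero.1 (norm_eq_zero.1 (pow_eq_zero_iff two_ne_zero |>.1 b5))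
  · have b3 := congrFun b1 x
    unfold fd at b3
    simp only [Pi.zero_apply] at b3
    rcases mul_eq_zero.1 b3 with b4 | b4
    · exact absurd b4 hp.ne'
    · have b5 : ‖B b x - B' b x‖ ^ 2 = 0 := by
        nlinarith [sq_nonneg (‖B b x - B' b x‖), sq_nonneg (‖E b x - E' b x‖)]
      exact sub_eq_zero.1 (norm_eq_zero.1 (pow_eq_zero_iff two_ne_zero |>.1 b5))

/-- A continuous function of time that vanishes before `t` vanishes at `t`. -/
lemma eq_of_eq_before {Y : Type*} [TopologicalSpace Y] [T2Space Y] {φ ψ : ℝ → Y}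
    (hφ : ContinuousOn φ (Ico 0 T)) (hψ : ContinuousOn ψ (Ico 0 T)) (ht : t ∈ Ioo 0 T)
    (heq : ∀ s ∈ Ioo 0 t, φ s = ψ s) : φ t = ψ t := by
  have hsub : Ioo 0 t ⊆ Ico 0 T := fun s hs => ⟨hs.1.le, hs.2.trans ht.2⟩
  have h1 : Tendsto φ (𝓝[Ioo 0 t] t) (𝓝 (φ t)) :=
    (hφ t (Ioo_subset_Ico_self ht)).mono_left (nhdsWithin_mono _ hsub)
  have h2 : Tendsto ψ (𝓝[Ioo 0 t] t) (𝓝 (ψ t)) :=
    (hψ t (Ioo_subset_Ico_self ht)).mono_left (nhdsWithin_mono _ hsub)
  have h3 : (𝓝[Ioo 0 t] t).NeBot := by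
    rw [← mem_closure_iff_nhdsWithin_neBot, closure_Ioo ht.1.ne]
    exact ⟨ht.1.le, le_rfl⟩
  refine tendsto_nhds_unique h1 (h2.congr' ?_)
  filter_upwards [self_mem_nhdsWithin] with s hs
  exact (heq s hs).symm

/-- Propagation of the vacuum. -/
theorem KSol.vanish (h : KSol T f E B) (h0 : ∀ x, ‖x - x₀‖ ≤ R → ∀ v, f 0 x v = 0)
    (ht : t ∈ Ico 0 T) {x : E3} (hx : ‖x - x₀‖ ≤ R - t) (v : E3) : f t x v = 0 := by
  have hz : KSol T (fun _ _ _ => (0 : ℝ)) E B := by
    refine ⟨contDiffOn_const, h.E_contDiff, h.B_contDiff, fun t ht x v => ?_,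
      fun t _ R => ⟨0, fun s _ x v _ hne => absurd rfl hne⟩⟩
    simp
  have hopen : ∀ b ∈ Ico 0 T, ∀ x, ‖x - x₀‖ < R - b → ∀ v, f b x v = 0 := by
    intro b hb x hx v
    have := isAddHaar_prod
    have hbR : b ≤ R := by linarith [norm_nonneg (x - x₀)]
    have hR : 0 ≤ R := hb.1.trans hbR
    obtain ⟨P, hf⟩ := h.exists_MB hb x₀ R
    have hg : MB x₀ R P b (fun _ _ _ => (0 : ℝ)) := fun s _ x v _ hne => absurd rfl hne
    have hK0 : KK R x₀ f (fun _ _ _ => (0 : ℝ)) 0 = 0 := by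
      have : ∀ z : E3 × E3, ph R x₀ 0 z.1 * (f 0 z.1 z.2 - 0) ^ 2 = 0 := by
        intro z
        by_cases hz : ph R x₀ 0 z.1 = 0
        · rw [hz, zero_mul]
        · rw [h0 z.1 (le_of_ph_ne hR hz) z.2, sub_self]
          ring
      exact integral_eq_zero_of_ae (ae_of_all _ this)
    have hanti : AntitoneOn (KK R x₀ f (fun _ _ _ => (0 : ℝ))) (Icc 0 b) := by
      refine antitoneOn_of_deriv_nonpos (convex_Icc _ _)
        (continuousOn_KK h hz hb hbR hf hg) (fun s hs => ?_) (fun s hs => ?_)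
      · rw [interior_Icc] at hs
        exact (hasDerivAt_KK h hz hb hbR hf hg hs).differentiableAt.differentiableWithinAt
      · rw [interior_Icc] at hs
        rw [(hasDerivAt_KK h hz hb hbR hf hg hs).deriv]
        have g1 := KK_growth h hz hb hbR hf hg hs le_rfl
          (fun z _ a => by simp)
        simpa using g1
    have h1 := hanti ⟨le_rfl, hb.1⟩ ⟨hb.1, le_rfl⟩ hb.1
    rw [hK0] at h1
    have hK : KK R x₀ f (fun _ _ _ => (0 : ℝ)) b = 0 :=
      le_antisymm h1 (KK_nonneg b)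
    have hp := ph_pos hx
    have c1 : Continuous fun z : E3 × E3 => ph R x₀ b z.1 * (f b z.1 z.2 - 0) ^ 2 :=
      ((contDiff_ph_slice b).continuous.comp continuous_fst).mul
        (((h.f_slice hb).continuous.sub continuous_const).pow 2)
    have a1 : (fun z : E3 × E3 => ph R x₀ b z.1 * (f b z.1 z.2 - 0) ^ 2) = 0 := by
      have a2 := (integral_eq_zero_iff_of_nonneg
        (fun z => mul_nonneg (ph_nonneg _ _) (sq_nonneg _))
        (integrable_kin h hz hb hbR hf hg ⟨hb.1, le_rfl⟩)).1 hK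
      exact (c1.ae_eq_iff_eq volume continuous_zero).1 a2
    have a3 := congrFun a1 (x, v)
    simp only [Pi.zero_apply] at a3
    rcases mul_eq_zero.1 a3 with a4 | a4
    · exact absurd a4 hp.ne'
    · have a5 := pow_eq_zero_iff two_ne_zero |>.1 a4
      linarith
  rcases eq_or_lt_of_le ht.1 with h1 | h1
  · subst h1
    exact h0 x (by linarith) v
  · have ht' : t ∈ Ioo 0 T := ⟨h1, ht.2⟩
    have cf : ContinuousOn (fun s => f s x v) (Ico 0 T) :=
      h.f_contDiff.continuousOn.comp (f := fun s : ℝ => (s, x, v)) (by fun_prop)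
        (fun s hs => ⟨hs, mem_univ _⟩)
    exact eq_of_eq_before (ψ := fun _ => (0 : ℝ)) cf continuousOn_const ht' (fun s hs =>
      hopen s ⟨hs.1.le, hs.2.trans ht.2⟩ x (by linarith [hs.2]) v)

/-- **Finite speed of propagation.** -/
theorem LSol.finite_speed (h : LSol T f E B) (h' : LSol T g E' B')
    (h0 : ∀ x, ‖x - x₀‖ ≤ R → (∀ v, f 0 x v = g 0 x v) ∧ E 0 x = E' 0 x ∧ B 0 x = B' 0 x)
    (ht : t ∈ Ico 0 T) {x : E3} (hx : ‖x - x₀‖ ≤ R - t) :
    (∀ v, f t x v = g t x v) ∧ E t x = E' t x ∧ B t x = B' t x := by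
  rcases eq_or_lt_of_le ht.1 with h1 | h1
  · subst h1
    exact h0 x (by linarith)
  · have ht' : t ∈ Ioo 0 T := ⟨h1, ht.2⟩
    have hin : ∀ s ∈ Ioo 0 t, (∀ v, f s x v = g s x v) ∧ E s x = E' s x ∧ B s x = B' s x := by
      intro s hs
      exact agree_open h h' ⟨hs.1.le, hs.2.trans ht.2⟩ h0 (by linarith [hs.2])
    have cf : ∀ (φ : ℝ → E3 → E3 → ℝ), ContDiffOn ℝ 1
        (fun z : ℝ × E3 × E3 => φ z.1 z.2.1 z.2.2) (Ico 0 T ×ˢ univ) → ∀ v,
        ContinuousOn (fun s => φ s x v) (Ico 0 T) := by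
      intro φ hφ v
      exact hφ.continuousOn.comp (f := fun s : ℝ => (s, x, v)) (by fun_prop)
        (fun s hs => ⟨hs, mem_univ _⟩)
    have cE : ∀ (φ : ℝ → E3 → E3), ContDiffOn ℝ 1
        (fun z : ℝ × E3 => φ z.1 z.2) (Ico 0 T ×ˢ univ) →
        ContinuousOn (fun s => φ s x) (Ico 0 T) := by
      intro φ hφ
      exact hφ.continuousOn.comp (f := fun s : ℝ => (s, x)) (by fun_prop)
        (fun s hs => ⟨hs, mem_univ _⟩)
    exact ⟨fun v => eq_of_eq_before (cf f h.f_contDiff v) (cf g h'.f_contDiff v) ht'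
        (fun s hs => (hin s hs).1 v),
      eq_of_eq_before (cE E h.E_contDiff) (cE E' h'.E_contDiff) ht' (fun s hs => (hin s hs).2.1),
      eq_of_eq_before (cE B h.B_contDiff) (cE B' h'.B_contDiff) ht' (fun s hs => (hin s hs).2.2)⟩

end Vale.Agent.P107.Cn
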