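import Vale.Agent.P107.LE.Datum

/-!
Data and solutions of the relativistic Vlasov-Maxwell system without any condition at spatial
infinity.
-/

open MeasureTheory Set
open scoped ContDiff

namespace Vale.Agent.P107.RVM

/-- `(f₀, E₀, B₀)` is a smooth datum without any condition at spatial infinity: `f₀ ≥ 0` is smooth
and, for `x` in a bounded set, vanishes outside a bounded set of momenta; `E₀, B₀` are arbitrary
smooth fields (no decay, no bound, no `L²` condition) with `div E₀ = ρ_{f₀}`, `div B₀ = 0`. -/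
structure IsLocalDatum (f₀ : V3 → V3 → ℝ) (E₀ B₀ : V3 → V3) : Prop where
  f_smooth : ContDiff ℝ ∞ (fun z : V3 × V3 => f₀ z.1 z.2)
  f_supp : ∀ R : ℝ, ∃ P : ℝ, ∀ x v, len x ≤ R → f₀ x v ≠ 0 → len v ≤ P
  f_nonneg : ∀ x v, 0 ≤ f₀ x v
  E_smooth : ∀ i, ContDiff ℝ ∞ (fun x => E₀ x i)
  B_smooth : ∀ i, ContDiff ℝ ∞ (fun x => B₀ x i)
  gauss : ∀ x, div E₀ x = ∫ v, f₀ x v
  gauss_mag : ∀ x, div B₀ x = 0

/-- `(f, E, B)` is a classical solution on `[0,T)` without any condition at spatial infinity: a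
`C¹` triple with `f ≥ 0`, solving the equations pointwise, such that, for `x` in a bounded set and
`t` in a compact subinterval, `f` vanishes outside a bounded set of momenta. -/
structure IsLocalSolution (T : ℝ) (f : ℝ → V3 → V3 → ℝ) (E B : ℝ → V3 → V3) : Prop where
  f_nonneg : ∀ t ∈ Ico 0 T, ∀ x v, 0 ≤ f t x v
  f_c1 : ContDiffOn ℝ 1 (fun z : ℝ × V3 × V3 => f z.1 z.2.1 z.2.2) (Ico 0 T ×ˢ univ)
  E_c1 : ContDiffOn ℝ 1 (fun z : ℝ × V3 => E z.1 z.2) (Ico 0 T ×ˢ univ)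
  B_c1 : ContDiffOn ℝ 1 (fun z : ℝ × V3 => B z.1 z.2) (Ico 0 T ×ˢ univ)
  vlasov : ∀ t ∈ Ico 0 T, ∀ x v,
    derivWithin (fun s => f s x v) (Ico 0 T) t + ∑ i, u v i * pd i (fun y => f t y v) x
      + ∑ i, (E t x i + cross (u v) (B t x) i) * pd i (fun w => f t x w) v = 0
  ampere : ∀ t ∈ Ico 0 T, ∀ x i,
    derivWithin (fun s => E s x i) (Ico 0 T) t - curl (B t) x i = - cur f t x i
  faraday : ∀ t ∈ Ico 0 T, ∀ x i,
    derivWithin (fun s => B s x i) (Ico 0 T) t + curl (E t) x i = 0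
  gauss : ∀ t ∈ Ico 0 T, ∀ x, div (E t) x = rho f t x
  gauss_mag : ∀ t ∈ Ico 0 T, ∀ x, div (B t) x = 0
  local_support : ∀ t ∈ Ico 0 T, ∀ R : ℝ, ∃ P : ℝ, ∀ s ∈ Icc 0 t, ∀ x v,
    len x ≤ R → f s x v ≠ 0 → len v ≤ P

/-- The solutions `(f, E, B)` and `(g, E', B')` agree at time `t` at the points of `S`. -/
def AgreeAt (S : Set V3) (t : ℝ) (f g : ℝ → V3 → V3 → ℝ) (E B E' B' : ℝ → V3 → V3) : Prop :=
  ∀ x ∈ S, (∀ v, f t x v = g t x v) ∧ E t x = E' t x ∧ B t x = B' t x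

end Vale.Agent.P107.RVM
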