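import Vale.Agent.P107.H15.Transfer
import Vale.Agent.P107.Bdl.B4
import Vale.Agent.P107.Bdl.B5

/-!
Global solutions without any condition at spatial infinity.
-/

open MeasureTheory Set

namespace Vale.Agent.P107.RVM

/-- The Starting-point theorem. -/
theorem globalExistence (f₀ : V3 → V3 → ℝ) (E₀ B₀ : V3 → V3) (h : IsAdmissible f₀ E₀ B₀) :
    ∃ (f : ℝ → V3 → V3 → ℝ) (E B : ℝ → V3 → V3),
      (∀ T, 0 < T → IsClassicalSolution T f E B) ∧
      (∀ x v, f 0 x v = f₀ x v) ∧ (∀ x, E 0 x = E₀ x) ∧ (∀ x, B 0 x = B₀ x) :=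
  LE.rvm_global_of
    (fun hD => LE.global_existence (fun _ _ _ _ hT hs => momentum_bounded hT hs) hD) h

/-- Uniqueness without any condition at spatial infinity. -/
theorem local_unique {T : ℝ} {f g : ℝ → V3 → V3 → ℝ} {E B E' B' : ℝ → V3 → V3}
    (h : IsLocalSolution T f E B) (h' : IsLocalSolution T g E' B')
    (hf : ∀ x v, f 0 x v = g 0 x v) (hE : ∀ x, E 0 x = E' 0 x) (hB : ∀ x, B 0 x = B' 0 x)
    {t : ℝ} (ht : t ∈ Ico 0 T) : f t = g t ∧ E t = E' t ∧ B t = B' t := by
  have key : ∀ x, (∀ v, f t x v = g t x v) ∧ E t x = E' t x ∧ B t x = B' t x := by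
    intro x
    refine Cn.finiteSpeed T f g E B E' B' 0 (len x + t) h h'
      (fun y _ => ⟨fun v => hf y v, hE y, hB y⟩) t ht x ?_
    show len (x - 0) ≤ len x + t - t
    rw [sub_zero]
    linarith
  exact ⟨funext fun x => funext fun v => (key x).1 v, funext fun x => (key x).2.1,
    funext fun x => (key x).2.2⟩

end Vale.Agent.P107.RVM
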