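import Vale.Agent.P107.H15.Cone7
import Vale.Agent.P107.H276.Glue
import Vale.Agent.P107.Bdl.B4

/-!
Transfer of the finite speed of propagation to coordinates.
-/

attribute [-instance] ProperSMul.toContinuousSMul IsTopologicalTorsor.toContinuousSMul
  IdemSemiring.toCanonicallyOrderedAdd IdemSemiring.toMulLeftMono IdemSemiring.toMulRightMono
  AddQuantale.instAddLeftMono AddQuantale.instAddRightMono Quantale.instMulLeftMono
  Quantale.instMulRightMono FiniteDimensional.rclike_to_real IsScalarTower.complexToReal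
  FiniteDimensional.complexToReal

open MeasureTheory Set Filter Topology
open scoped RealInnerProductSpace ENNReal NNReal

namespace Vale.Agent.P107.Cn

open RVM (V3)

variable {T : ℝ} {f : ℝ → V3 → V3 → ℝ} {E B : ℝ → V3 → V3}

lemma slab_FF {F : ℝ → V3 → V3}
    (h : ContDiffOn ℝ 1 (fun z : ℝ × V3 => F z.1 z.2) (Ico 0 T ×ˢ univ)) :
    ContDiffOn ℝ 1 (fun z : ℝ × E3 => FF F z.1 z.2) (Ico 0 T ×ˢ univ) := by
  have h1 : ContDiff ℝ 1 fun z : ℝ × E3 => (z.1, coo z.2) :=
    contDiff_fst.prodMk (coo.contDiff.comp contDiff_snd)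
  have h2 : ContDiffOn ℝ 1 (fun z : ℝ × E3 => F z.1 (coo z.2)) (Ico 0 T ×ˢ univ) :=
    h.comp (f := fun z : ℝ × E3 => (z.1, coo z.2)) h1.contDiffOn
      (fun z hz => ⟨hz.1, mem_univ _⟩)
  exact coo.symm.contDiff.comp_contDiffOn h2

lemma derivWithin_FF {F : ℝ → V3 → V3}
    (h : ContDiffOn ℝ 1 (fun z : ℝ × V3 => F z.1 z.2) (Ico 0 T ×ˢ univ)) {t : ℝ}
    (ht : t ∈ Ico 0 T) (x : E3) (i : Fin 3) :
    derivWithin (fun s => FF F s x) (Ico 0 T) t i
      = derivWithin (fun s => F s (coo x) i) (Ico 0 T) t := by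
  have hu : UniqueDiffWithinAt ℝ (Ico 0 T) t :=
    (uniqueDiffOn_Ico 0 T) t ht
  have h1 : DifferentiableWithinAt ℝ (fun s => FF F s x) (Ico 0 T) t := by
    have h2 : ContDiffOn ℝ 1 (fun s : ℝ => FF F s x) (Ico 0 T) :=
      (slab_FF h).comp (f := fun s : ℝ => (s, x)) (by fun_prop)
        (fun z hz => ⟨hz, mem_univ _⟩)
    exact (h2.differentiableOn (by norm_num)) t ht
  have h3 : HasDerivWithinAt (fun s => (EuclideanSpace.proj i : E3 →L[ℝ] ℝ) (FF F s x))
      ((EuclideanSpace.proj i : E3 →L[ℝ] ℝ) (derivWithin (fun s => FF F s x) (Ico 0 T) t))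
      (Ico 0 T) t :=
    (EuclideanSpace.proj i : E3 →L[ℝ] ℝ).hasFDerivAt.comp_hasDerivWithinAt t h1.hasDerivWithinAt
  exact (h3.derivWithin hu).symm

/-- A local solution in coordinates is a local solution in the Euclidean space. -/
theorem lSol_ff (h : RVM.IsLocalSolution T f E B) : LSol T (ff f) (FF E) (FF B) := by
  have hfc : ContDiffOn ℝ 1 (fun z : ℝ × E3 × E3 => ff f z.1 z.2.1 z.2.2)
      (Ico 0 T ×ˢ univ) := by
    have h1 : ContDiff ℝ 1 fun z : ℝ × E3 × E3 => (z.1, coo z.2.1, coo z.2.2) :=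
      contDiff_fst.prodMk ((coo.contDiff.comp (contDiff_fst.comp contDiff_snd)).prodMk
        (coo.contDiff.comp (contDiff_snd.comp contDiff_snd)))
    exact h.f_c1.comp (f := fun z : ℝ × E3 × E3 => (z.1, coo z.2.1, coo z.2.2)) h1.contDiffOn
      (fun z hz => ⟨hz.1, mem_univ _⟩)
  have hcs : ∀ t ∈ Ico 0 T, ∀ R : ℝ, ∃ P : ℝ, ∀ s ∈ Icc 0 t, ∀ x v,
      ‖x‖ ≤ R → ff f s x v ≠ 0 → ‖v‖ ≤ P := by
    intro t ht R
    obtain ⟨P, hP⟩ := h.local_support t ht R
    refine ⟨P, fun s hs x v hx hne => ?_⟩
    have := hP s hs (coo x) (coo v) (by rwa [len_coo]) hne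
    rwa [len_coo] at this
  refine
    { f_contDiff := hfc
      E_contDiff := slab_FF h.E_c1
      B_contDiff := slab_FF h.B_c1
      vlasov := ?_
      ampere := ?_
      faraday := ?_
      local_support := hcs }
  · intro t ht x v
    have h1 := h.vlasov t ht (coo x) (coo v)
    have h2 : fderiv ℝ (fun y => ff f t y v) x (u v)
        = ∑ i, RVM.u (coo v) i * RVM.pd i (fun y => f t y (coo v)) (coo x) := by
      have h3 := fderiv_coo (g := fun y => f t y (coo v)) (x := x) (u v)
      refine h3.trans ?_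
      rw [fderiv_eq_sum]
      refine Finset.sum_congr rfl fun i _ => ?_
      rw [u_coo, coo_apply]
    have h4 : fderiv ℝ (fun w => ff f t x w) v (FF E t x + cross (u v) (FF B t x))
        = ∑ i, (E t (coo x) i + RVM.cross (RVM.u (coo v)) (B t (coo x)) i)
          * RVM.pd i (fun w => f t (coo x) w) (coo v) := by
      have h5 := fderiv_coo (g := fun w => f t (coo x) w) (x := v)
        (FF E t x + cross (u v) (FF B t x))
      refine h5.trans ?_
      rw [fderiv_eq_sum]
      refine Finset.sum_congr rfl fun i _ => ?_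
      congr 1
      rw [coo_apply, PiLp.add_apply, ← cross_coo, coo_FF]
      have h6 : coo (u v) = RVM.u (coo v) := by
        funext j
        rw [u_coo, coo_apply]
      rw [h6]
      rfl
    rw [h2, h4]
    exact h1
  · intro t ht x
    ext i
    have h1 := h.ampere t ht (coo x) i
    have hcur : cur (ff f) t x i = RVM.cur f t (coo x) i := by
      unfold cur RVM.cur
      have hint : Integrable fun v => ff f t x v • u v := by
        have hc : Continuous fun v => ff f t x v := by
          have h2 : ContinuousOn (fun v : E3 => ff f t x v) univ :=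
            hfc.continuousOn.comp (f := fun v : E3 => (t, x, v)) (by fun_prop)
              (fun z _ => ⟨ht, mem_univ _⟩)
          exact continuousOn_univ.1 h2
        have hcomp : HasCompactSupport fun v => ff f t x v := by
          obtain ⟨P, hP⟩ := hcs t ht ‖x‖
          refine HasCompactSupport.intro (isCompact_closedBall (0 : E3) P) ?_
          intro v hv
          by_contra hne
          exact hv (by simpa using hP t ⟨ht.1, le_rfl⟩ x v le_rfl hne)
        exact (hc.smul cont_u).integrable_of_hasCompactSupport hcomp.smul_right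
      have h3 := (EuclideanSpace.proj i : E3 →L[ℝ] ℝ).integral_comp_comm hint
      refine h3.symm.trans ?_
      rw [← integral_coo]
      refine integral_congr_ae (ae_of_all _ fun v => ?_)
      simp only [u_coo]
      change (ff f t x v • u v) i = _
      rw [PiLp.smul_apply, smul_eq_mul, mul_comm]
      rfl
    rw [PiLp.sub_apply, PiLp.neg_apply, curl_FF, derivWithin_FF h.E_c1 ht, hcur]
    exact h1
  · intro t ht x
    ext i
    have h1 := h.faraday t ht (coo x) i
    rw [PiLp.add_apply, curl_FF, derivWithin_FF h.B_c1 ht]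
    exact h1

/-- **Finite speed of propagation** in coordinates. -/
theorem finiteSpeed : RVM.FiniteSpeed := by
  intro T f g E B E' B' x₀ R h h' h0 t ht x hx
  have hx' : RVM.len (x - x₀) ≤ R - t := hx
  have e : ∀ y : E3, ‖y - coo.symm x₀‖ = RVM.len (coo y - x₀) := by
    intro y
    rw [← len_coo, map_sub, coo.apply_symm_apply]
  have h0' : ∀ y : E3, ‖y - coo.symm x₀‖ ≤ R →
      (∀ v, ff f 0 y v = ff g 0 y v) ∧ FF E 0 y = FF E' 0 y ∧ FF B 0 y = FF B' 0 y := by
    intro y hy
    rw [e] at hy
    obtain ⟨a1, a2, a3⟩ := h0 (coo y) hy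
    exact ⟨fun v => a1 (coo v), by unfold FF; rw [a2], by unfold FF; rw [a3]⟩
  have h2 := (lSol_ff h).finite_speed (lSol_ff h') h0' ht (x := coo.symm x)
    (by rw [e, coo.apply_symm_apply]; exact hx')
  obtain ⟨a1, a2, a3⟩ := h2
  refine ⟨fun v => ?_, ?_, ?_⟩
  · have := a1 (coo.symm v)
    unfold ff at this
    rwa [coo.apply_symm_apply, coo.apply_symm_apply] at this
  · have := congrArg coo a2
    rwa [coo_FF, coo_FF, coo.apply_symm_apply] at this
  · have := congrArg coo a3
    rwa [coo_FF, coo_FF, coo.apply_symm_apply] at this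

end Vale.Agent.P107.Cn
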